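import Vale.Agent.P281.H342.MFS.SecMix

/-! P281, theorem MFS, block F: `∫ A ^ (n - 1) ∧ Λ ≥ 0` if `m Λ` is the curvature of a line bundle
with a section which is not zero. -/

open scoped Manifold ContDiff Topology ComplexOrder Matrix
open Set Filter MeasureTheory Vale.Agent.P281 Vale.Agent.P272.K Vale.Agent.P299.H223
open Vale.Agent.P284.H248 Vale.Agent.P285.TM Vale.Agent.P285.H591.TM
open Vale.Agent.P281.H949.SA Vale.Agent.P281.H716 Vale.Agent.P281.H716.IsSys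
open Vale.Agent.P272.K.AMP (hess)
open Vale.Agent.P272.K.INT (IsClosedForm)
open Vale.Agent.P281.H342.KD Vale.Agent.P281.H342.KG

set_option linter.all false

noncomputable section

namespace Vale.Agent.P281.H342.MFS

open Vale.Agent.P281.H949.GM (holAt_chart holAt_ev tsymm ev_of_symm cHess_change uu uu_pos
  smooth_uu curv_uu)

section loc

variable {n : ℕ}

/-- the curvature of the regularised metric, in one chart -/
lemma curv_at {N m : ℕ} {L : Matrix (Fin n) (Fin n) ℂ} {c : Cm n → Fin N → ℂ} {φ R : Cm n → ℝ}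
    {z : Cm n} (hc : ContDiffAt ℂ ω c z) (hφ : ContDiffAt ℝ ∞ φ z) (hL : L = cHess φ z)
    (hR : ∀ᶠ y in 𝓝 z, R y = nsq (c y) * Real.exp (-(m * φ y))) (hm : 0 < m) {δ : ℝ}
    (hδ : 0 < δ) : (L + (((m : ℝ)⁻¹ : ℝ) : ℂ) • cHess (fun y => Real.log (R y + δ)) z -
      ((δ / (R z + δ) : ℝ) : ℂ) • L).PosSemidef := by
  have hφ2 : ContDiffAt ℝ 2 φ z := hφ.of_le two_le_infty
  have hmR : (m : ℝ) ≠ 0 := by exact_mod_cast hm.ne'
  have hu : ContDiffAt ℝ 2 (fun z => Real.log (uu c φ m δ z)) z :=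
    ((smooth_uu hc hφ).log (uu_pos hδ _).ne').of_le two_le_infty
  have hρe : ∀ᶠ z in 𝓝 z, R z + δ = uu c φ m δ z * Real.exp (-(m * φ z)) := by
    filter_upwards [hR] with z hz
    rw [hz]
    unfold Vale.Agent.P281.H949.GM.uu
    rw [add_mul, mul_assoc δ, ← Real.exp_add, add_neg_cancel, Real.exp_zero, mul_one]
  have h1 : (fun z => Real.log (R z + δ)) =ᶠ[𝓝 z]
      fun z => Real.log (uu c φ m δ z) + (-(m : ℝ)) * φ z := by
    filter_upwards [hρe] with z hz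
    rw [hz, Real.log_mul (uu_pos hδ z).ne' (Real.exp_pos _).ne', Real.log_exp]
    ring
  have h2 : cHess (fun y => Real.log (R y + δ)) z =
      cHess (fun z => Real.log (uu c φ m δ z)) z + ((-(m : ℝ) : ℝ) : ℂ) • L := by
    rw [cHess_congr h1, cHess_add hu (contDiffAt_const.mul hφ2), cHess_const_mul _ hφ2, hL]
  have h3 := (curv_uu hc hφ hδ (m := m)).smul
    (show (0 : ℂ) ≤ (((m : ℝ)⁻¹ : ℝ) : ℂ) by exact_mod_cast inv_nonneg.2 (Nat.cast_nonneg m))
  have h4 : δ * Real.exp (m * φ z) / uu c φ m δ z = δ / (R z + δ) := by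
    have h5 := hρe.self_of_nhds
    have h6 : Real.exp (m * φ z) * Real.exp (-(m * φ z)) = 1 := by
      rw [← Real.exp_add, add_neg_cancel, Real.exp_zero]
    have h7 : (0 : ℝ) < R z + δ := by
      rw [h5]; exact mul_pos (uu_pos hδ _) (Real.exp_pos _)
    rw [div_eq_div_iff (uu_pos hδ _).ne' h7.ne', h5]
    linear_combination (δ * uu c φ m δ z) * h6
  rw [h2, smul_add, smul_smul]
  rw [h4, smul_sub, smul_smul, ← hL] at h3
  have e1 : (((m : ℝ)⁻¹ : ℝ) : ℂ) * ((-(m : ℝ) : ℝ) : ℂ) = -1 := by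
    rw [← Complex.ofReal_mul]
    have : (m : ℝ)⁻¹ * (-(m : ℝ)) = -1 := by field_simp
    rw [this]; push_cast; rfl
  have e2 : (((m : ℝ)⁻¹ : ℝ) : ℂ) * (((δ / (R z + δ) * m : ℝ)) : ℂ) = ((δ / (R z + δ) : ℝ) : ℂ) := by
    rw [← Complex.ofReal_mul]
    congr 1
    field_simp
  rw [e1, neg_one_smul]
  rw [e2] at h3
  have e3 : L + ((((m : ℝ)⁻¹ : ℝ) : ℂ) • cHess (fun z => Real.log (uu c φ m δ z)) z + -L) -
      ((δ / (R z + δ) : ℝ) : ℂ) • L =
      (((m : ℝ)⁻¹ : ℝ) : ℂ) • cHess (fun z => Real.log (uu c φ m δ z)) z -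
        ((δ / (R z + δ) : ℝ) : ℂ) • L := by abel
  rw [e3]
  exact h3

lemma psd_jac {A : Matrix (Fin n) (Fin n) ℂ} (hA : A.PosSemidef) (J : Matrix (Fin n) (Fin n) ℂ) :
    (J.transpose * A * J.map (starRingEnd ℂ)).PosSemidef := by
  have h1 := hA.conjTranspose_mul_mul_same (J.map (starRingEnd ℂ))
  have h2 : (J.map (starRingEnd ℂ))ᴴ = J.transpose := by
    ext i j
    simp [Matrix.conjTranspose_apply]
  rwa [h2] at h1

lemma herm_jac {A : Matrix (Fin n) (Fin n) ℂ} (hA : A.IsHermitian)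
    (J : Matrix (Fin n) (Fin n) ℂ) : (J.transpose * A * J.map (starRingEnd ℂ)).IsHermitian := by
  have h1 := Matrix.isHermitian_conjTranspose_mul_mul (J.map (starRingEnd ℂ)) hA
  have h2 : (J.map (starRingEnd ℂ))ᴴ = J.transpose := by
    ext i j
    simp [Matrix.conjTranspose_apply]
  rwa [h2] at h1

end loc

/-- **Row M-F**. -/
theorem nonnegPartM {n : ℕ} {X : Type} [TopologicalSpace X] [T2Space X] [CompactSpace X]
    [ConnectedSpace X] [ChartedSpace (Cm n) X] [IsManifold 𝓘(ℂ, Cm n) ω X]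
    {χ Λ : Chart n X → Cm n → Matrix (Fin n) (Fin n) ℂ} (hχ : IsKahler χ) (hΛ : IsClosedForm Λ)
    {m : ℕ} (hm : 0 < m) {Nf : X → ℝ} (hNf : SmoothFn (n := n) Nf)
    (hloc : ∀ x, ∃ (e : Chart n X) (ψ : Cm n → ℝ) (c : Cm n → ℂ), At e x ∧
      ContDiffAt ℝ ∞ ψ (e x) ∧ AnalyticAt ℂ c (e x) ∧ cHess ψ (e x) = (m : ℂ) • Λ e (e x) ∧
      ∀ᶠ z in 𝓝 (e x), Nf (e.symm z) = ‖c z‖ ^ 2 * Real.exp (-ψ z))
    (hpos : ∃ x, 0 < Nf x) {A : Chart n X → Cm n → Matrix (Fin n) (Fin n) ℂ}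
    (hA : IsClosedForm A) (hA0 : ∀ e x, At e x → (A e (e x)).PosSemidef) :
    0 ≤ H167.GM.mixX A Λ := by
  obtain ⟨x₀, hx₀⟩ := hpos
  haveI : Nonempty X := ⟨x₀⟩
  have hmR : (m : ℝ) ≠ 0 := by exact_mod_cast hm.ne'
  choose e₀ ψ c he₀ hψ hc hL hev using hloc
  -- the functions on `X`
  set P : X → X → ℂ := fun x y => c x (e₀ x y) with hPdef
  have hP : ∀ x, J.HolAt (Cm n) (P x) x := by
    intro x
    have h1 : ContMDiffAt 𝓘(ℂ, Cm n) 𝓘(ℂ, Cm n) ω (e₀ x : X → Cm n) x :=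
      contMDiffAt_of_mem_maximalAtlas (IsManifold.subset_maximalAtlas (he₀ x).1) (he₀ x).2
    exact ContMDiffAt.comp x (hc x).contDiffAt.contMDiffAt h1
  have hnear : ∀ x, ∀ᶠ y in 𝓝 x, Nf y = ‖P x y‖ ^ 2 * Real.exp (-ψ x (e₀ x y)) := by
    intro x
    filter_upwards [((e₀ x).continuousAt (he₀ x).2).eventually (hev x),
      (e₀ x).open_source.mem_nhds (he₀ x).2] with y h1 h2
    rw [(e₀ x).left_inv h2] at h1
    exact h1
  have h0 : ∀ x, 0 ≤ Nf x := by
    intro x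
    rw [(hnear x).self_of_nhds]
    positivity
  -- the identity theorem
  have hiff : ∀ x, ∀ᶠ y in 𝓝 x, ((∃ᶠ z in 𝓝 y, Nf z ≠ 0) ↔ ∃ᶠ z in 𝓝 y, P x z ≠ 0) := by
    intro x
    filter_upwards [eventually_eventually_nhds.2 (hnear x)] with y hy
    refine Filter.frequently_congr ?_
    filter_upwards [hy] with z hz
    rw [hz]
    constructor
    · intro h1 h2
      apply h1
      rw [h2, norm_zero, zero_pow two_ne_zero, zero_mul]
    · intro h1
      exact mul_ne_zero (pow_ne_zero 2 (norm_ne_zero_iff.2 h1)) (Real.exp_pos _).ne'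
  have hfreq : ∀ x, ∃ᶠ z in 𝓝 x, P x z ≠ 0 := by
    set U : Set X := {x | ∃ᶠ z in 𝓝 x, Nf z ≠ 0} with hU
    have hUo : IsOpen U := by
      rw [isOpen_iff_mem_nhds]
      intro x hx
      have h1 := (hiff x).self_of_nhds.1 hx
      filter_upwards [nz_ev (hP x) h1, hiff x] with y h2 h3 using h3.2 h2
    have hUc : IsOpen Uᶜ := by
      rw [isOpen_iff_mem_nhds]
      intro x hx
      have h1 : ∀ᶠ z in 𝓝 x, Nf z = 0 := by
        have h2 : ¬ ∃ᶠ z in 𝓝 x, Nf z ≠ 0 := hx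
        filter_upwards [not_frequently.1 h2] with z hz
        exact not_not.1 hz
      filter_upwards [eventually_eventually_nhds.2 h1] with y hy
      intro h3
      exact h3 (by filter_upwards [hy] with z hz using not_not.2 hz)
    have hne' : U.Nonempty := by
      refine ⟨x₀, ?_⟩
      have h1 : ContinuousAt Nf x₀ := (INT.SmoothFn.continuous hNf).continuousAt
      exact (h1.eventually_ne hx₀.ne').frequently
    have h1 : U = univ := IsClopen.eq_univ ⟨isOpen_compl_iff.1 hUc, hUo⟩ hne'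
    intro x
    have h2 : x ∈ U := by rw [h1]; trivial
    exact (hiff x).self_of_nhds.1 h2
  -- the zero set
  have hnull : ∀ e ∈ atlas (Cm n) X, volume {z | z ∈ e.target ∧ Nf (e.symm z) = 0} = 0 := by
    intro e he
    refine measure_null_of_locally_null _ fun z hz => ?_
    have hex := At.of_target he hz.1
    set x := e.symm z with hx
    have hexz : e x = z := e.right_inv hz.1
    have h1 := holV_chart hex (hP x)
    have h2 := (tsymm hex).eventually (hnear x)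
    rw [hexz] at h1 h2
    obtain ⟨r, hr, hball⟩ := Metric.eventually_nhds_iff_ball.1
      ((h1.analyticAt.eventually_analyticAt).and h2)
    have hne2 : ∃ y ∈ Metric.ball z r, P x (e.symm y) ≠ 0 := by
      by_contra hcon
      push Not at hcon
      refine hfreq x ?_
      refine ev_of_symm hex ?_
      rw [hexz]
      filter_upwards [Metric.ball_mem_nhds z hr] with y hy
      exact not_not.2 (hcon y hy)
    have h5 := Vale.Agent.P285.H16.null_zero (f := fun y => P x (e.symm y))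
      Metric.isOpen_ball (convex_ball z r) (fun y hy => (hball y hy).1) hne2
    refine ⟨Metric.ball z r ∩ {z | z ∈ e.target ∧ Nf (e.symm z) = 0}, ?_,
      measure_mono_null ?_ h5⟩
    · exact inter_mem (mem_nhdsWithin_of_mem_nhds (Metric.ball_mem_nhds z hr)) self_mem_nhdsWithin
    · rintro y ⟨hy1, hy2, hy3⟩
      refine ⟨hy1, ?_⟩
      rw [(hball y hy1).2] at hy3
      exact norm_eq_zero.1 (pow_eq_zero_iff two_ne_zero |>.1
        ((mul_eq_zero.1 hy3).resolve_right (Real.exp_pos _).ne'))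
  -- the curvature form in the chart `e₀`
  have hmc : (((m : ℝ)⁻¹ : ℝ) : ℂ) * (m : ℂ) = 1 := by
    rw [Complex.ofReal_inv, Complex.ofReal_natCast, inv_mul_cancel₀]
    exact_mod_cast hm.ne'
  have hLx : ∀ x, Λ (e₀ x) (e₀ x x) = cHess (fun y => (m : ℝ)⁻¹ * ψ x y) (e₀ x x) := by
    intro x
    rw [cHess_const_mul _ ((hψ x).of_le two_le_infty), hL x, smul_smul, hmc, one_smul]
  have hherm : ∀ e x, At e x → (Λ e (e x)).IsHermitian := by
    intro e x he
    have h1 : Λ e (e x) = (jacM e (e₀ x) x).transpose * Λ (e₀ x) (e₀ x x) *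
      (jacM e (e₀ x) x).map (starRingEnd ℂ) := hΛ.form e (e₀ x) x he (he₀ x)
    rw [h1]
    refine herm_jac ?_ _
    rw [hLx x]
    exact C2.cHess_isHermitian (contDiffAt_const.mul ((hψ x).of_le two_le_infty))
  obtain ⟨C, hC0, hC⟩ := Vale.Agent.P272.K.AMP.Main.exists_comparison'
    (b := fun e z => -Λ e z) hχ.toIsHermitian
    (fun e x h i j => (hΛ.smooth e x h i j).neg) (fun e e' x h h' => by
      show -Λ e (e x) = _ * -Λ e' (e' x) * _
      have h1 : Λ e (e x) = (jacM e e' x).transpose * Λ e' (e' x) *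
        (jacM e e' x).map (starRingEnd ℂ) := hΛ.form e e' x h h'
      rw [h1, Matrix.mul_neg, Matrix.neg_mul]) (fun e x h => (hherm e x h).neg)
  refine H776.KL.mix_nonneg hχ hΛ m hNf h0 hnull C (fun δ hδ e x he => ?_) hA hA0
  -- in the chart `e₀`
  have hκ : 0 ≤ δ / (Nf x + δ) := (div_pos hδ (add_pos_of_nonneg_of_pos (h0 x) hδ)).le
  have hNx : Nf ((e₀ x).symm (e₀ x x)) = Nf x := by rw [(he₀ x).left_inv]
  have k1 := curv_at (N := 1) (m := m) (L := Λ (e₀ x) (e₀ x x)) (c := fun y _ => c x y)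
    (φ := fun y => (m : ℝ)⁻¹ * ψ x y) (R := fun y => Nf ((e₀ x).symm y)) (z := e₀ x x)
    (contDiffAt_pi.2 fun _ => (hc x).contDiffAt) (contDiffAt_const.mul (hψ x)) (hLx x) (by
      filter_upwards [hev x] with y hy
      rw [hy]
      have h1 : nsq (fun _ : Fin 1 => c x y) = ‖c x y‖ ^ 2 := by simp [nsq]
      rw [h1, mul_inv_cancel_left₀ hmR]) hm hδ
  simp only [hNx] at k1
  have k2 := (hC (e₀ x) x (he₀ x)).smul
    (show (0 : ℂ) ≤ ((δ / (Nf x + δ) : ℝ) : ℂ) by exact_mod_cast hκ)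
  have k3 := k1.add k2
  have k4 : Λ (e₀ x) (e₀ x x) + (((m : ℝ)⁻¹ : ℝ) : ℂ) •
      cHess (fun y => Real.log (Nf ((e₀ x).symm y) + δ)) (e₀ x x) -
        ((δ / (Nf x + δ) : ℝ) : ℂ) • Λ (e₀ x) (e₀ x x) +
        ((δ / (Nf x + δ) : ℝ) : ℂ) • ((C : ℂ) • χ (e₀ x) (e₀ x x) - -Λ (e₀ x) (e₀ x x)) =
      Λ (e₀ x) (e₀ x x) + (((m : ℝ)⁻¹ : ℝ) : ℂ) •
        cHess (fun y => Real.log (Nf ((e₀ x).symm y) + δ)) (e₀ x x) +
        ((C * (δ / (Nf x + δ)) : ℝ) : ℂ) • χ (e₀ x) (e₀ x x) := by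
    have h5 : ((C * (δ / (Nf x + δ)) : ℝ) : ℂ) =
        ((δ / (Nf x + δ) : ℝ) : ℂ) * (C : ℂ) := by
      rw [← Complex.ofReal_mul, mul_comm]
    rw [h5, smul_sub, smul_neg, smul_smul]
    abel
  rw [k4] at k3
  have k5 := psd_jac k3 (jacM e (e₀ x) x)
  have hR2 : ContDiffAt ℝ 2 (fun z => Real.log (Nf ((e₀ x).symm z) + δ)) (e₀ x x) := by
    have h1 : ContDiffAt ℝ ∞ (fun z => Nf ((e₀ x).symm z)) (e₀ x x) := hNf (e₀ x) x (he₀ x)
    have h2 : ContDiffAt ℝ ∞ (fun z => Nf ((e₀ x).symm z) + δ) (e₀ x x) :=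
      h1.add contDiffAt_const
    refine (h2.log ?_).of_le two_le_infty
    rw [hNx]
    exact (add_pos_of_nonneg_of_pos (h0 x) hδ).ne'
  have h6 : hess (fun y => Real.log (Nf y + δ)) e (e x) = (jacM e (e₀ x) x).transpose *
      cHess (fun y => Real.log (Nf ((e₀ x).symm y) + δ)) (e₀ x x) *
      (jacM e (e₀ x) x).map (starRingEnd ℂ) :=
    cHess_change (u := fun y => Real.log (Nf y + δ)) he (he₀ x) hR2
  have h7 : Λ e (e x) = (jacM e (e₀ x) x).transpose * Λ (e₀ x) (e₀ x x) *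
    (jacM e (e₀ x) x).map (starRingEnd ℂ) := hΛ.form e (e₀ x) x he (he₀ x)
  have h8 : χ e (e x) = (jacM e (e₀ x) x).transpose * χ (e₀ x) (e₀ x x) *
    (jacM e (e₀ x) x).map (starRingEnd ℂ) := hχ.toIsHermitian.isForm e (e₀ x) x he (he₀ x)
  rw [h6, h7, h8]
  rw [Matrix.mul_add, Matrix.mul_add, Matrix.add_mul, Matrix.add_mul, Matrix.mul_smul,
    Matrix.smul_mul, Matrix.mul_smul, Matrix.smul_mul] at k5
  exact k5

end Vale.Agent.P281.H342.MFS
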