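import Vale.Agent.P281.H342.MFS.Dec
import Vale.Agent.P281.H498.TL.TensA
import Vale.Agent.P281.H368.MFS.Iface

/-! P281, theorem MFS, block TK: the norms of the pull-back of a section of `m K_Y`. -/

open scoped Manifold ContDiff Topology ComplexOrder
open Set Filter Vale.Agent.P281.J Vale.Agent.P272.K Vale.Agent.P272.K.AMP Vale.Agent.P299
open Vale.Agent.P299.H882 (J xi qf)
open Vale.Agent.P272.K.INT (IsClosedForm)

noncomputable section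

namespace Vale.Agent.P281.H342.MFS

open Vale.Agent.P281 Vale.Agent.P281.MF Vale.Agent.P281.ISO Vale.Agent.P281.H713.SA
open Vale.Agent.P281.H716 Vale.Agent.P299.D Vale.Agent.P281.H787 Vale.Agent.P281.H713.KD
open Vale.Agent.P281.H498

set_option linter.all false

section

variable {n p M μ : ℕ} {X Z Y : Type} [TopologicalSpace X]
  [ChartedSpace (Cm n) X] [IsManifold 𝓘(ℂ, Cm n) ω X]
  [TopologicalSpace Z] [ChartedSpace (Cm n) Z] [IsManifold 𝓘(ℂ, Cm n) ω Z]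
  [TopologicalSpace Y] [ChartedSpace (Cm p) Y] [IsManifold 𝓘(ℂ, Cm p) ω Y]
  {j : Z → X} {f : Z → Y} {S : Set Y} {Dv : Fin M → Set X}
  {r : Fin M → X → ℝ} {R : Fin M → FormM n X} {e : Chart n X} {x : X}

theorem kerF_of (hs : Setup n p j f S Dv) (he : At e x) {v : Cm n}
    (hv : KerD n p j f S e x v) : H368.MFS.KerF p j f e x v := by
  intro z hz w hw
  obtain ⟨z', w', h1, h2, h3, h4⟩ := hv
  have h5 : z' = z := hs.emb.injective (h1.trans hz.symm)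
  subst h5
  subst h1
  have hu := isUnit_ej hs.hj hs.inj he
  have h6 : w' = w := by
    have h7 : ∀ y, Ring.inverse (dV (Cm n) (fun z => e (j z)) z')
        (dV (Cm n) (fun z => e (j z)) z' y) = y := fun y =>
      congrArg (fun T : Cm n →L[ℂ] Cm n => T y) (Ring.inverse_mul_cancel _ hu)
    have h8 : dV (Cm n) (fun w => e (j w)) z' w' = dV (Cm n) (fun w => e (j w)) z' w :=
      h3.trans hw.symm
    have h9 := congrArg (fun y => Ring.inverse (dV (Cm n) (fun z => e (j z)) z') y) h8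
    simp only [h7] at h9
    exact h9
  rw [← h6]
  exact h4

theorem IsDecPairK.goodF (hs : Setup n p j f S Dv) {χ : FormM n X} {K : Fin M → ℕ}
    {N₀ N₁ : FormM n X → X → ℝ} (h : IsDecPairK Dv r χ p μ K (KerD n p j f S) N₀ N₁) :
    H368.MFS.GoodF r χ p μ K N₀ N₁ (H368.MFS.KerF p j f) :=
  (h.mono fun e x v he hv => kerF_of hs he hv).good

end

/-- **the norms of the pull-backs of two meromorphic sections**, with the kernels of the rows -/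
theorem tenPole_K {n p M : ℕ} {X Z Y : Type}
    [TopologicalSpace X] [T2Space X] [CompactSpace X] [ConnectedSpace X]
    [ChartedSpace (Cm n) X] [IsManifold 𝓘(ℂ, Cm n) ω X]
    [TopologicalSpace Z] [ChartedSpace (Cm n) Z] [IsManifold 𝓘(ℂ, Cm n) ω Z]
    [TopologicalSpace Y] [T2Space Y] [ConnectedSpace Y]
    [ChartedSpace (Cm p) Y] [IsManifold 𝓘(ℂ, Cm p) ω Y]
    {χ : FormM n X} (hχ : IsKahler χ)
    {j : Z → X} (hj : J.IsBigOpen (Cm n) j) {f : Z → Y}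
    (hf : ContMDiff 𝓘(ℂ, Cm n) 𝓘(ℂ, Cm p) ω f) {𝒢 : Set (Set Y)} (h𝒢 : IsThin p f 𝒢)
    {Δ : Set X → ℝ} (hsnc : J.IsSNC (Cm n) Δ) {Dv : Fin M → Set X}
    (hinj : Function.Injective Dv) (hDv : ∀ D, Δ D ≠ 0 ↔ ∃ i, Dv i = D)
    {r : Fin M → X → ℝ} {R : Fin M → FormM n X} (hR : IsBd Dv r R)
    {m : ℕ} (hm : 0 < m) {K₀ : Set X → ℕ} (hK₀ : ∀ D, (K₀ D : ℝ) ≤ m * Δ D)
    {σ₀ σ₁ : Y → ℂ} (hsec₀ : IsSec p m (⋃₀ 𝒢) σ₀) (hsec₁ : IsSec p m (⋃₀ 𝒢) σ₁)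
    (hpole₀ : ∀ x, PoleAt n p m K₀ 𝒢 j f σ₀ x) (hpole₁ : ∀ x, PoleAt n p m K₀ 𝒢 j f σ₁ x)
    {l : ℕ} (hl : 0 < l) :
    ∃ (K : Fin M → ℕ) (N₀ N₁ : FormM n X → X → ℝ),
      (∀ i, (K i : ℝ) ≤ (m * l : ℕ) * Δ (Dv i)) ∧
      IsDecPairK Dv r χ p (m * l) K (KerD n p j f (⋃₀ 𝒢)) N₀ N₁ ∧
      (∀ g x, IsKahler g → 0 < N₀ g x → 0 < N₁ g x →
        Real.log (N₁ g x) - Real.log (N₀ g x) = Real.log (N₁ χ x) - Real.log (N₀ χ x)) ∧
      ∀ z, f z ∉ ⋃₀ 𝒢 → (∀ i, j z ∉ Dv i) →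
        Function.Surjective (mfderiv 𝓘(ℂ, Cm n) 𝓘(ℂ, Cm p) f z) → σ₀ (f z) ≠ 0 → σ₁ (f z) ≠ 0 →
        0 < N₀ χ (j z) ∧ 0 < N₁ χ (j z) ∧ Real.log (N₁ χ (j z)) - Real.log (N₀ χ (j z)) =
          l * (Real.log (‖σ₁ (f z)‖ ^ 2) - Real.log (‖σ₀ (f z)‖ ^ 2)) := by
  classical
  have hs := JB.snc hsnc
  have hset : Setup n p j f (⋃₀ 𝒢) Dv := h𝒢.setup hj hf hsnc hDv
  have hDpr : ∀ i, IsPrimeDivisor (Cm n) (Dv i) := fun i => hs.prime _ ((hDv _).2 ⟨i, rfl⟩)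
  have hKne : ∀ D, K₀ D ≠ 0 → Δ D ≠ 0 := by
    intro D hD h0
    have h1 := hK₀ D
    rw [h0, mul_zero] at h1
    have h2 : (0 : ℝ) < K₀ D := by exact_mod_cast Nat.pos_of_ne_zero hD
    linarith
  have hfin : {D | K₀ D ≠ 0}.Finite := hs.finite.subset fun D hD => hKne D hD
  have hpr : ∀ D, K₀ D ≠ 0 → IsPrimeDivisor (Cm n) D := fun D hD => hs.prime D (hKne D hD)
  obtain ⟨τ₀, hτ₀, hpull₀⟩ := ten_of_pole hj h𝒢 hfin hpr hpole₀ hl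
  obtain ⟨τ₁, hτ₁, hpull₁⟩ := ten_of_pole hj h𝒢 hfin hpr hpole₁ hl
  have hK'D : ∀ D, K₀ D * l ≠ 0 → ∃ i, Dv i = D := fun D hD =>
    (hDv D).1 (hKne D (left_ne_zero_of_mul hD))
  have hav : ∀ z, (∀ i, j z ∉ Dv i) → ∀ D, K₀ D ≠ 0 → j z ∉ D := by
    intro z hz D hD
    obtain ⟨i, rfl⟩ := (hDv D).1 (hKne D hD)
    exact hz i
  -- divisibility
  have hclB : IsClosed (⋃ i, Dv i) := isClosed_iUnion_of_finite fun i => (hDpr i).1
  have hdB : Dense (⋃ i, Dv i)ᶜ := by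
    have h1 : (⋃ i, Dv i)ᶜ = {x : X | ∀ i, x ∉ Dv i} := by
      ext x
      simp
    rw [h1]
    exact hset.denseD
  have key : ∀ (K : Fin M → ℕ) (s : Y → ℂ) (τ : Ten n (m * l * p) X),
      IsPull p (m * l) j f (⋃₀ 𝒢) Dv s τ →
      (∀ i, K i ≠ 0 → ∀ z, j z ∈ Dv i → f z ∈ ⋃₀ 𝒢) → KeyAt Dv K τ := by
    intro K s τ hp hover e x g a h hg ha i hi I t c
    refine keyThin h𝒢 hj hf (hover i hi) hclB hdB h (hg.1 i) (hg.2 i) ha.1 ?_ I t c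
    filter_upwards [ev_of_chart h ha.2, hg.ev h, e.open_source.mem_nhds h.2] with y h1 h2 h3 z hzy
      hzS hzB
    subst hzy
    have hzD : ∀ i, j z ∉ Dv i := fun i hi => hzB (mem_iUnion_of_mem i hi)
    have h4 := (h2.ne hzD).self_of_nhds
    refine ⟨s (f z) * ∏ i, g i (e (j z)) ^ K i, fun I => ?_⟩
    rw [← h1 h4 I, hp e z ⟨h.1, h3⟩ hzS hzD I]
    ring
  obtain ⟨K, N₀, N₁, hK, hdec, hq, hval⟩ := decPairK_of H787.KD.normPart gramPart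
    H787.KD.exactPart hχ hset hR hinj hDpr (Nat.mul_pos hm hl) (isTenK_of hinj hK'D hτ₀)
    (isTenK_of hinj hK'D hτ₁) (hsec₀.pow l) (hsec₁.pow l)
    (fun e z h hz hzD I => hpull₀ e z h hz (hav z hzD) I)
    (fun e z h hz hzD I => hpull₁ e z h hz (hav z hzD) I) key
  refine ⟨K, N₀, N₁, fun i => ?_, hdec, hq, fun z hz hzD hsurj hz0 hz1 => ?_⟩
  · have h1 : (K i : ℝ) ≤ (K₀ (Dv i) : ℝ) * l := by exact_mod_cast hK i
    push_cast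
    calc (K i : ℝ) ≤ (K₀ (Dv i) : ℝ) * l := h1
      _ ≤ (m * Δ (Dv i)) * l := mul_le_mul_of_nonneg_right (hK₀ _) (Nat.cast_nonneg l)
      _ = m * l * Δ (Dv i) := by ring
  · obtain ⟨h0, h1, h2⟩ := hval z hz hzD hsurj (pow_ne_zero _ hz0) (pow_ne_zero _ hz1)
    refine ⟨h0, h1, ?_⟩
    have h3 : ∀ t : ℂ, Real.log (‖t ^ l‖ ^ 2) = l * Real.log (‖t‖ ^ 2) := by
      intro t
      rw [norm_pow, ← pow_mul, mul_comm l 2, pow_mul, Real.log_pow]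
    rw [h2, h3, h3]
    ring

section

variable {n p : ℕ} {X Z Y : Type}
  [TopologicalSpace X] [ChartedSpace (Cm n) X]
  [TopologicalSpace Z] [ChartedSpace (Cm n) Z]
  [TopologicalSpace Y] [ChartedSpace (Cm p) Y] [IsManifold 𝓘(ℂ, Cm p) ω Y]
  {m : ℕ} {K : Set X → ℕ} {𝒢 : Set (Set Y)} {j : Z → X} {f : Z → Y} {σ : Y → ℂ}

theorem poleAt_of' (h : H713.TL.IsPullSection (n := n) (p := p) m K 𝒢 j f σ) (x : X) :
    PoleAt n p m K 𝒢 j f σ x := by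
  obtain ⟨T, g, hT, hg, ha⟩ := h.pole x
  refine ⟨T, g, hT, hg, fun I => ?_⟩
  obtain ⟨a, h1, h2⟩ := ha fun r c => I (finProdFinEquiv (r, c))
  exact ⟨a, h1, h2⟩

theorem isSec_of' (h𝒢 : ∀ G ∈ 𝒢, IsPrimeDivisor (Cm p) G)
    (h : H713.TL.IsPullSection (n := n) (p := p) m K 𝒢 j f σ) : IsSec p m (⋃₀ 𝒢) σ := by
  obtain ⟨k, hk, hσ⟩ := h.mero
  intro y hy
  refine section_local hσ fun G hG => ?_
  have hG' : G ∈ 𝒢 := hk G hG
  obtain ⟨g, hg⟩ := (h𝒢 G hG').2.1 y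
  exact ⟨g, hg, fun h0 => hy (mem_sUnion_of_mem (hg.mem_iff.2 h0) hG')⟩

end

/-- **Row M-TK**. -/
theorem tenPartM : H368.MFS.TenPartM := by
  intro n p M X Z Y _ _ _ _ _ _ _ _ _ _ _ _ _ _ χ hχ j hj f hf hsub 𝒢 hfin hpr Δ hsnc Dv hinj
    hDv r R hR m hm K₀ hK₀ σ h
  have hthin := thin_of_sub hj hf hsub hfin hpr
  have hs := JB.snc hsnc
  have hset : Setup n p j f (⋃₀ 𝒢) Dv := hthin.setup hj hf hsnc hDv
  obtain ⟨K, N₀, N₁, h1, h2, h3, h4⟩ := tenPole_K hχ hj hf hthin hsnc hinj hDv hR hm hK₀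
    (isSec_of' hpr h) (isSec_of' hpr h) (poleAt_of' h) (poleAt_of' h) one_pos
  refine ⟨m * 1, K, N₀, N₁, Nat.mul_pos hm one_pos, h1, h2.toDec, h3, h2.goodF hset,
    fun z hz hzD hsurj h0 => ?_⟩
  obtain ⟨h5, h6, -⟩ := h4 z hz hzD hsurj h0 h0
  exact ⟨h5, h6⟩

end Vale.Agent.P281.H342.MFS
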