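import Vale.Agent.P281.H342.MFS.RW
import Vale.Agent.P281.H167.GM.M7

/-! P281, theorem MFS, block ME: restriction of the volume form to the fibre (adjunction). -/

open scoped Manifold ContDiff Topology ComplexOrder Matrix
open Set Filter Vale.Agent.P281 Vale.Agent.P272.K Vale.Agent.P299.H223
open Vale.Agent.P281.H949.SA
open Vale.Agent.P272.K.AMP (hess)
open Vale.Agent.P281.H342.KD Vale.Agent.P281.H342.KG

set_option linter.all false

noncomputable section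

namespace Vale.Agent.P281.H342.MFS

open Vale.Agent.P281.H949.GM (holAt_chart holAt_ev tsymm ev_of_symm cHess_change)

variable {n d : ℕ} {X F : Type} [TopologicalSpace X] [ChartedSpace (Cm n) X]
  [TopologicalSpace F] [ChartedSpace (Cm d) F] [IsManifold 𝓘(ℂ, Cm d) ω F]

/-- the restriction of the volume form to the fibre has the same local form -/
theorem locW_adj {ι : F → X} {G : F → ℂ} (hG : H167.GM.IsAdj (n := n) (d := d) ι G) {m : ℕ}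
    {W : X → ℝ} {t₀ : F} {r : ℕ} {g : Fin r → F → ℂ} {a : Fin r → ℕ} {u : F → ℝ}
    {B : Chart d F → Cm d → Matrix (Fin d) (Fin d) ℂ} {Q : F → ℂ}
    (hu : ∀ e : Chart d F, At e t₀ → ContDiffAt ℝ ∞ (fun z => u (e.symm z)) (e t₀))
    (hev : ∀ᶠ z in 𝓝 t₀, (∀ e : Chart d F, At e z → B e (e z) = hess u e (e z)) ∧
      (Q z ≠ 0 → W (ι z) * ‖Q z‖ ^ 2 = ‖∏ i, g i z ^ a i‖ ^ 2 * Real.exp (m * u z) *
        ‖ContinuousLinearMap.det (mfderiv 𝓘(ℂ, Cm n) 𝓘(ℂ, Cm n) (chartAt (Cm n) (ι t₀)) (ι z) :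
          Cm n →L[ℂ] Cm n) ^ m‖ ^ 2)) :
    ∃ u' : F → ℝ, (∀ e : Chart d F, At e t₀ →
      ContDiffAt ℝ ∞ (fun z => u' (e.symm z)) (e t₀)) ∧
      ∀ᶠ z in 𝓝 t₀, (∀ e : Chart d F, At e z → B e (e z) = hess u' e (e z)) ∧
      (Q z ≠ 0 → (W (ι z) * ‖G z ^ m‖ ^ 2) * ‖Q z‖ ^ 2 = ‖∏ i, g i z ^ a i‖ ^ 2 *
        Real.exp (m * u' z) * ‖ContinuousLinearMap.det
          (mfderiv 𝓘(ℂ, Cm d) 𝓘(ℂ, Cm d) (chartAt (Cm d) t₀) z : Cm d →L[ℂ] Cm d) ^ m‖ ^ 2) := by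
  obtain ⟨η, hη, hη0, hη1⟩ := hG t₀
  have hηh : ∀ᶠ z in 𝓝 t₀, J.HolAt (Cm d) η z ∧ η z ≠ 0 :=
    (holAt_ev hη).and (hη.continuousAt.eventually_ne hη0)
  have hlog : ∀ {z : F} {e : Chart d F}, J.HolAt (Cm d) η z → η z ≠ 0 → At e z →
      ContDiffAt ℝ ∞ (fun y => Real.log (‖η (e.symm y)‖ ^ 2)) (e z) := by
    intro z e h1 h2 he
    have h3 : ContDiffAt ℂ ω (fun y (_ : Fin 1) => η (e.symm y)) (e z) :=
      contDiffAt_pi.2 fun _ => holAt_chart he h1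
    have h4 := smooth_log_nsq h3 (by
      intro h0
      have h5 := congrFun h0 0
      simp only [he.left_inv] at h5
      exact h2 h5)
    have h5 : (fun y => Real.log (‖η (e.symm y)‖ ^ 2)) =
        fun y => Real.log (nsq fun _ : Fin 1 => η (e.symm y)) := by
      funext y
      simp [nsq]
    rw [h5]
    exact h4
  refine ⟨fun z => u z + Real.log (‖η z‖ ^ 2), fun e he => (hu e he).add (hlog hη hη0 he), ?_⟩
  have hu2 := smooth2_ev (ψ := u) fun e he => (hu e he).of_le H716.IsSys.two_le_infty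
  filter_upwards [hev, hηh, hη1, hu2] with z h1 h2 h3 h4
  refine ⟨fun e he => ?_, fun hQ => ?_⟩
  · have h5 := hlog h2.1 h2.2 he
    have h6 : cHess (fun y => u (e.symm y) + Real.log (‖η (e.symm y)‖ ^ 2)) (e z) =
        cHess (fun y => u (e.symm y)) (e z) := by
      rw [cHess_add (h4 e he) (h5.of_le H716.IsSys.two_le_infty),
        cHess_log_norm_sq (holAt_chart he h2.1) (by rw [he.left_inv]; exact h2.2), add_zero]
    rw [h1.1 e he]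
    exact h6.symm
  · have h5 := h1.2 hQ
    have h6 : (0 : ℝ) < ‖η z‖ ^ 2 := pow_pos (norm_pos_iff.2 h2.2) 2
    have h7 : Real.exp (m * (u z + Real.log (‖η z‖ ^ 2))) = Real.exp (m * u z) * ‖η z ^ m‖ ^ 2 := by
      rw [mul_add, Real.exp_add, Real.exp_nat_mul (Real.log _), Real.exp_log h6, norm_pow,
        ← pow_mul, ← pow_mul, mul_comm 2 m]
    have h8 : ‖H167.GM.cj n (ι t₀) (ι z) ^ m‖ ^ 2 * ‖G z ^ m‖ ^ 2 =
        ‖η z ^ m‖ ^ 2 * ‖H167.GM.cj d t₀ z ^ m‖ ^ 2 := by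
      rw [← mul_pow, ← norm_mul, ← mul_pow, h3, mul_pow, norm_mul, mul_pow]
    show (W (ι z) * ‖G z ^ m‖ ^ 2) * ‖Q z‖ ^ 2 = ‖∏ i, g i z ^ a i‖ ^ 2 *
      Real.exp (m * (u z + Real.log (‖η z‖ ^ 2))) * ‖H167.GM.cj d t₀ z ^ m‖ ^ 2
    rw [h7]
    have h9 : W (ι z) * ‖Q z‖ ^ 2 = ‖∏ i, g i z ^ a i‖ ^ 2 * Real.exp (m * u z) *
      ‖H167.GM.cj n (ι t₀) (ι z) ^ m‖ ^ 2 := h5
    linear_combination (‖G z ^ m‖ ^ 2) * h9 + (‖∏ i, g i z ^ a i‖ ^ 2 * Real.exp (m * u z)) * h8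

end Vale.Agent.P281.H342.MFS
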