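import Vale.Agent.P281.H342.MFS.Sec
import Vale.Agent.P281.H776.KL.MixNN

/-! P281, theorem MFS, block F: a section of `m (K_X + Δ)` which is not zero gives
`∫ A ^ (n - 1) ∧ c₁(K_X + Δ) ≥ 0` for every closed semipositive form `A`. -/

open scoped Manifold ContDiff Topology ComplexOrder Matrix
open Set Filter MeasureTheory Vale.Agent.P281 Vale.Agent.P272.K Vale.Agent.P299.H223
open Vale.Agent.P284.H248 Vale.Agent.P285.TM Vale.Agent.P285.H591.TM
open Vale.Agent.P281.H949.SA Vale.Agent.P281.H716 Vale.Agent.P281.H716.IsSys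
open Vale.Agent.P272.K.AMP (hess)
open Vale.Agent.P272.K.INT (IsClosedForm)
open Vale.Agent.P281.H342.KD Vale.Agent.P281.H342.KG

set_option linter.all false

noncomputable section

namespace Vale.Agent.P281.H342.MFS

variable {n : ℕ} {X : Type} [TopologicalSpace X] [ChartedSpace (Cm n) X]
  [IsManifold 𝓘(ℂ, Cm n) ω X] {κ : Type} {eqn : κ → X → (X → ℂ) → Prop} {T : Finset κ}
  {M : ℕ} {Dv : Fin M → κ} {ψ : Fin M → X → X → ℝ} {φ : Chart n X → Cm n → ℝ} {k : κ → ℕ} {m : ℕ}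
  {dl : Fin M → ℝ} {s : X → ℂ}

/-- **a section which is not zero gives a nonnegative degree** -/
theorem mix_nonneg_sec [T2Space X] [CompactSpace X] [ConnectedSpace X] (h : IsSys n eqn T)
    (hprod : ∀ f : κ → ℂ, ∏ i, f (Dv i) = ∏ D ∈ T, f D)
    (hDv : ∀ i, Dv i ∈ T) (hψ : ∀ i, Wt (OD h (Dv i) (hDv i)) (ψ i)) (hφ : IsCanonicalMetric φ)
    (hk : ∀ D, k D ≠ 0 → D ∈ T) (hkd : ∀ i, (k (Dv i) : ℝ) = m * dl i) (hm : 0 < m)
    (hs : J.IsSection (Cm n) eqn m k s) (hne : ∃ x ∈ off eqn T, s x ≠ 0)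
    {χ A : Chart n X → Cm n → Matrix (Fin n) (Fin n) ℂ} (hχ : IsKahler χ) (hA : IsClosedForm A)
    (hA0 : ∀ e x, At e x → (A e (e x)).PosSemidef) :
    0 ≤ H167.GM.mixX A (H713.KD.clsK φ dl fun i => cv (OD h (Dv i) (hDv i)) (ψ i)) := by
  obtain ⟨h1, C, -, h2⟩ := nrm_curv h hprod hDv hψ hφ hk hkd hm hs hne hχ
  haveI : Nonempty X := ⟨hne.choose⟩
  exact H776.KL.mix_nonneg hχ (closed_cls (fun i => isClosedForm_cv (hψ i)) hφ) m
    (nrm_smooth h hprod hDv hψ hφ hk hs) (fun x => nrm_nonneg h x) h1 C h2 hA hA0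

end Vale.Agent.P281.H342.MFS
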