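import Vale.Agent.P281.H342.KG.ME4

/-! P281, theorem MFS, block ME: the function `ρ` defined by a (singular) volume form `W^(1/m)` on the
pair `(X, Δ)` and metrics of `K_X` and of the components of `Δ`. -/

open scoped Manifold ContDiff Topology ComplexOrder Matrix
open Set Filter Vale.Agent.P281 Vale.Agent.P272.K Vale.Agent.P299.H223
open Vale.Agent.P284.H248 Vale.Agent.P285.TM Vale.Agent.P285.H591.TM
open Vale.Agent.P281.H949.SA Vale.Agent.P281.H716 Vale.Agent.P281.H716.IsSys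
open Vale.Agent.P272.K.AMP (hess)
open Vale.Agent.P272.K.INT (IsClosedForm)
open Vale.Agent.P281.H342.KD Vale.Agent.P281.H342.KG

set_option linter.all false

noncomputable section

namespace Vale.Agent.P281.H342.MFS

open Vale.Agent.P281.H949.GM (holAt_chart holAt_ev tsymm ev_of_symm cHess_change)

variable {n : ℕ} {X : Type} [TopologicalSpace X] [ChartedSpace (Cm n) X]
  [IsManifold 𝓘(ℂ, Cm n) ω X] {κ : Type} {eqn : κ → X → (X → ℂ) → Prop} {T : Finset κ}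
  {M : ℕ} {Dv : Fin M → κ} {ψ : Fin M → X → X → ℝ} {φ : Chart n X → Cm n → ℝ} {k : κ → ℕ} {m : ℕ}
  {e c : Chart n X} {x p : X} {dl : Fin M → ℝ} {W : X → ℝ}

/-- the square of the norm of the frame of `m K_X + ∑ k(D) D` at the point `z` -/
def fac (h : IsSys n eqn T) (Dv : Fin M → κ) (ψ : Fin M → X → X → ℝ)
    (φ : Chart n X → Cm n → ℝ) (k : κ → ℕ) (m : ℕ) (z : X) : ℝ :=
  ‖h.GG k z z‖ ^ 2 * Real.exp (-wg Dv ψ φ k m z (chartAt (Cm n) z) (chartAt (Cm n) z z))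

lemma fac_eq (h : IsSys n eqn T) (hprod : ∀ f : κ → ℂ, ∏ i, f (Dv i) = ∏ D ∈ T, f D)
    (hDv : ∀ i, Dv i ∈ T) (hψ : ∀ i, Wt (OD h (Dv i) (hDv i)) (ψ i)) (hφ : IsCanonicalMetric φ)
    (hp : x ∈ h.dom p) (he : At e x) : fac h Dv ψ φ k m x * ‖dj e x ^ m‖ ^ 2 =
      ‖h.GG k p x‖ ^ 2 * Real.exp (-wg Dv ψ φ k m p e (e x)) := by
  have hx := h.self_mem_dom x
  have hc : At (chartAt (Cm n) x) x := ⟨chart_mem_atlas _ _, mem_chart_source _ _⟩
  have hdj : dj (chartAt (Cm n) x) x = 1 := dj_self x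
  set c : Chart n X := chartAt (Cm n) x with hcd
  have h1 : (h.OL k).g x p x = ∏ i, h.uu (Dv i) x p x ^ k (Dv i) :=
    (hprod fun D => h.uu D x p x ^ k D).symm
  have h2 : ∀ i, (0 : ℝ) < ‖h.uu (Dv i) x p x‖ ^ 2 := fun i =>
    pow_pos (norm_pos_iff.2 (h.uu_ne (hDv i) hx hp)) 2
  have h3 : (0 : ℝ) < ‖(jacM c e x).det‖ ^ 2 :=
    pow_pos (norm_pos_iff.2 (jacM_det_ne_zero hc he)) 2
  have h4 : dj e x = (jacM c e x).det := by
    rw [dj_eq hc he, hdj, mul_one]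
  have h5 : ∀ i, ψ i x x = ψ i p x + Real.log (‖h.uu (Dv i) x p x‖ ^ 2) := fun i =>
    (hψ i).change x p x hx hp
  have h6 : wg Dv ψ φ k m x c (c x) = wg Dv ψ φ k m p e (e x) +
      (m * Real.log (‖(jacM c e x).det‖ ^ 2) +
        ∑ i, (k (Dv i) : ℝ) * Real.log (‖h.uu (Dv i) x p x‖ ^ 2)) := by
    unfold wg
    rw [hc.left_inv, he.left_inv, hφ.change c e x hc he]
    have h7 : ∑ i, (k (Dv i) : ℝ) * ψ i x x = ∑ i, (k (Dv i) : ℝ) * ψ i p x +
        ∑ i, (k (Dv i) : ℝ) * Real.log (‖h.uu (Dv i) x p x‖ ^ 2) := by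
      rw [← Finset.sum_add_distrib]
      exact Finset.sum_congr rfl fun i _ => by rw [h5]; ring
    rw [h7]
    ring
  have h8 : ‖h.GG k x x‖ ^ 2 = (∏ i, (‖h.uu (Dv i) x p x‖ ^ 2) ^ k (Dv i)) *
      ‖h.GG k p x‖ ^ 2 := by
    rw [h.GG_eq k hx hp, norm_mul, mul_pow, h1, norm_prod, ← Finset.prod_pow]
    congr 1
    refine Finset.prod_congr rfl fun i _ => ?_
    rw [norm_pow, ← pow_mul, ← pow_mul, mul_comm]
  have h9 : Real.exp (-(m * Real.log (‖(jacM c e x).det‖ ^ 2) +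
      ∑ i, (k (Dv i) : ℝ) * Real.log (‖h.uu (Dv i) x p x‖ ^ 2))) =
      ((‖(jacM c e x).det‖ ^ 2) ^ m * ∏ i, (‖h.uu (Dv i) x p x‖ ^ 2) ^ k (Dv i))⁻¹ := by
    rw [Real.exp_neg, Real.exp_add, Real.exp_nat_mul, Real.exp_log h3, Real.exp_sum]
    congr 2
    refine Finset.prod_congr rfl fun i _ => ?_
    rw [Real.exp_nat_mul, Real.exp_log (h2 i)]
  have h10 : (∏ i, (‖h.uu (Dv i) x p x‖ ^ 2) ^ k (Dv i)) ≠ 0 :=
    Finset.prod_ne_zero_iff.2 fun i _ => (pow_pos (h2 i) _).ne'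
  have h11 : ‖dj e x ^ m‖ ^ 2 = (‖(jacM c e x).det‖ ^ 2) ^ m := by
    rw [h4, norm_pow, ← pow_mul, mul_comm m 2, pow_mul]
  show ‖h.GG k x x‖ ^ 2 * Real.exp (-wg Dv ψ φ k m x c (c x)) * ‖dj e x ^ m‖ ^ 2 = _
  rw [h8, h6, neg_add, Real.exp_add, h9, h11]
  have key : ∀ A B E J : ℝ, A ≠ 0 → J ≠ 0 → A * B * (E * (J * A)⁻¹) * J = B * E := by
    intro A B E J hA hJ
    field_simp
  exact key _ _ _ _ h10 (pow_pos h3 m).ne'

lemma fac_pos (h : IsSys n eqn T) (hx : x ∈ off eqn T) : 0 < fac h Dv ψ φ k m x :=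
  mul_pos (pow_pos (norm_pos_iff.2 (h.GG_ne (h.self_mem_dom x) hx k)) 2) (Real.exp_pos _)

/-- the function `ρ` -/
def rhoW (h : IsSys n eqn T) (Dv : Fin M → κ) (ψ : Fin M → X → X → ℝ)
    (φ : Chart n X → Cm n → ℝ) (k : κ → ℕ) (m : ℕ) (W : X → ℝ) (x : X) : ℝ :=
  limUnder (𝓝[off eqn T] x) fun z => W z * fac h Dv ψ φ k m z

lemma rhoW_of (h : IsSys n eqn T) {f : X → ℝ} (hf : ContinuousAt f x)
    (hev : ∀ᶠ z in 𝓝 x, z ∈ off eqn T → W z * fac h Dv ψ φ k m z = f z) :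
    rhoW h Dv ψ φ k m W x = f x := by
  haveI : (𝓝[off eqn T] x).NeBot := mem_closure_iff_nhdsWithin_neBot.1 (h.dense_off x)
  refine Tendsto.limUnder_eq ?_
  have h1 : Tendsto f (𝓝[off eqn T] x) (𝓝 (f x)) := hf.tendsto.mono_left nhdsWithin_le_nhds
  refine h1.congr' ?_
  filter_upwards [nhdsWithin_le_nhds hev, self_mem_nhdsWithin] with z hz hzS using (hz hzS).symm

/-- **the local form of `ρ`** -/
theorem locW (h : IsSys n eqn T) (hprod : ∀ f : κ → ℂ, ∏ i, f (Dv i) = ∏ D ∈ T, f D)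
    (hDv : ∀ i, Dv i ∈ T) (hψ : ∀ i, Wt (OD h (Dv i) (hDv i)) (ψ i)) (hφ : IsCanonicalMetric φ)
    (hk : ∀ D, k D ≠ 0 → D ∈ T) (hkd : ∀ i, (k (Dv i) : ℝ) = m * dl i) {T' : Finset κ}
    {q : κ → X → ℂ} {r : ℕ} {g : Fin r → X → ℂ} {a : Fin r → ℕ} {u : X → ℝ}
    {B : Chart n X → Cm n → Matrix (Fin n) (Fin n) ℂ}
    (hT' : ∀ D, k D ≠ 0 → D ∈ T') (hq : ∀ D ∈ T', eqn D x (q D))
    (hg : ∀ i, J.HolAt (Cm n) (g i) x ∧ J.dif (Cm n) (g i) x ≠ 0)
    (hu : ∀ e : Chart n X, At e x → ContDiffAt ℝ ∞ (fun z => u (e.symm z)) (e x))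
    (hev : ∀ᶠ z in 𝓝 x, (∀ e : Chart n X, At e z → B e (e z) = hess u e (e z)) ∧
      (∏ D ∈ T', q D z ^ k D ≠ 0 → W z * ‖∏ D ∈ T', q D z ^ k D‖ ^ 2 =
        ‖∏ i, g i z ^ a i‖ ^ 2 * Real.exp (m * u z) * ‖ContinuousLinearMap.det
          (mfderiv 𝓘(ℂ, Cm n) 𝓘(ℂ, Cm n) (chartAt (Cm n) x) z : Cm n →L[ℂ] Cm n) ^ m‖ ^ 2)) :
    ∃ w : X → ℂ, J.HolAt (Cm n) w x ∧ w x ≠ 0 ∧
      H167.KG.LocAt m (fun e z => H713.KD.clsK φ dl
        (fun i => cv (OD h (Dv i) (hDv i)) (ψ i)) e z - B e z)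
        (rhoW h Dv ψ φ k m W) x g a (fun _ : Fin 1 => w) := by
  have hc : At (chartAt (Cm n) x) x := ⟨chart_mem_atlas _ _, mem_chart_source _ _⟩
  have hx := h.self_mem_dom x
  obtain ⟨w, hw, hw0, hwe⟩ := h.prod_unit hk hT' hq hx
  have hv : HolV (Cm n) (fun z => 1 / w z) x := (HolV.const 1 x).div hw hw0
  have hP : HolV (Cm n) (fun z => ∏ i, g i z ^ a i) x := HolV.prod fun i _ => (hg i).1.pow _
  -- the continuous function equal to `ρ`
  set f : X → ℝ := fun y => ‖∏ i, g i y ^ a i‖ ^ 2 * ‖1 / w y‖ ^ 2 *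
    Real.exp (-m * (pw Dv ψ φ dl x (chartAt (Cm n) x) y - u y)) with hf
  have hcont : ∀ {v : X → ℝ} {y : X}, (∀ e : Chart n X, At e y →
      ContDiffAt ℝ 2 (fun z => v (e.symm z)) (e y)) → ContinuousAt v y := by
    intro v y hv
    have hcy : At (chartAt (Cm n) y) y := ⟨chart_mem_atlas _ _, mem_chart_source _ _⟩
    have h1 := (hv _ hcy).continuousAt
    have h2 : ContinuousAt (fun y' => v ((chartAt (Cm n) y).symm (chartAt (Cm n) y y'))) y :=
      ContinuousAt.comp (g := fun z => v ((chartAt (Cm n) y).symm z)) h1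
        ((chartAt (Cm n) y).continuousAt hcy.2)
    refine h2.congr ?_
    filter_upwards [(chartAt (Cm n) y).open_source.mem_nhds hcy.2] with y' hy'
    rw [(chartAt (Cm n) y).left_inv hy']
  have hu2 := smooth2_ev (ψ := u) fun e he => (hu e he).of_le two_le_infty
  have hpw2 : ∀ᶠ y in 𝓝 x, ∀ e : Chart n X, At e y →
      ContDiffAt ℝ 2 (fun z => pw Dv ψ φ dl x (chartAt (Cm n) x) (e.symm z)) (e y) := by
    filter_upwards [h.dom_ev hx, at_ev hc] with y h3 h4 e he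
    exact (pw_smooth h hDv hψ hφ h3 h4 he).of_le two_le_infty
  have hfc : ∀ᶠ y in 𝓝 x, ContinuousAt f y := by
    filter_upwards [hu2, hpw2, hP.eventually, hv.eventually] with y h1 h2 h3 h4
    have e1 := hcont h1
    have e2 := hcont h2
    exact ((h3.continuousAt.norm.pow 2).mul (h4.continuousAt.norm.pow 2)).mul
      (Real.continuous_exp.continuousAt.comp ((e2.sub e1).const_mul _))
  have hoff : ∀ᶠ z in 𝓝 x, z ∈ off eqn T → W z * fac h Dv ψ φ k m z = f z := by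
    filter_upwards [hev, hwe, h.prod_ne hk hq, hw.continuousAt.eventually_ne hw0, at_ev hc,
      h.dom_ev hx] with z h1 h2 h3 h4 h5 h6 hz
    have h7 := h1.2 (h3 hz)
    have h8 := fac_eq (k := k) (m := m) h hprod hDv hψ hφ h6 h5
    have h9 : (0 : ℝ) < ‖dj (chartAt (Cm n) x) z ^ m‖ ^ 2 :=
      pow_pos (norm_pos_iff.2 (pow_ne_zero _ (dj_ne_zero h5))) 2
    have h10 : (0 : ℝ) < ‖w z‖ ^ 2 := pow_pos (norm_pos_iff.2 h4) 2
    have h11 : Real.exp (-wg Dv ψ φ k m x (chartAt (Cm n) x) (chartAt (Cm n) x z)) =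
        Real.exp (-m * (pw Dv ψ φ dl x (chartAt (Cm n) x) z - u z)) / Real.exp (m * u z) := by
      rw [← Real.exp_sub]
      congr 1
      unfold wg pw
      rw [h5.left_inv]
      have h12 : ∑ i, (k (Dv i) : ℝ) * ψ i x z = m * ∑ i, dl i * ψ i x z := by
        rw [Finset.mul_sum]
        exact Finset.sum_congr rfl fun i _ => by rw [hkd]; ring
      rw [h12]
      ring
    rw [h2, norm_mul, mul_pow] at h7
    have h13 : W z * (‖w z‖ ^ 2 * ‖h.GG k x z‖ ^ 2) = ‖∏ i, g i z ^ a i‖ ^ 2 *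
      Real.exp (m * u z) * ‖dj (chartAt (Cm n) x) z ^ m‖ ^ 2 := h7
    rw [h11] at h8
    rw [hf]
    simp only
    rw [norm_div, norm_one, div_pow, one_pow]
    have h14 : Real.exp (m * u z) ≠ 0 := (Real.exp_pos _).ne'
    have key : ∀ V F J w2 G P E U : ℝ, J ≠ 0 → w2 ≠ 0 → U ≠ 0 → V * (w2 * G) = P * U * J →
        F * J = G * (E / U) → V * F = P * (1 / w2) * E := by
      intro V F J w2 G P E U hJ hw hU e1 e2
      have e3 : F * J * U = G * E := by rw [e2]; field_simp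
      have e4 : V * F * (J * w2 * U) = P * (1 / w2) * E * (J * w2 * U) := by
        have : V * F * (J * w2 * U) = V * w2 * (F * J * U) := by ring
        rw [this, e3]
        have : V * w2 * (G * E) = (V * (w2 * G)) * E := by ring
        rw [this, e1]
        field_simp
      exact mul_right_cancel₀ (mul_ne_zero (mul_ne_zero hJ hw) hU) e4
    exact key _ _ _ _ _ _ _ _ h9.ne' h10.ne' h14 h13 h8
  have hρ : ∀ᶠ y in 𝓝 x, rhoW h Dv ψ φ k m W y = f y := by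
    filter_upwards [hfc, eventually_eventually_nhds.2 hoff] with y h1 h2
    exact rhoW_of h h1 h2
  refine ⟨fun z => 1 / w z, hv, div_ne_zero one_ne_zero hw0, hg, fun _ => hv,
    ⟨0, div_ne_zero one_ne_zero hw0⟩, fun y => pw Dv ψ φ dl x (chartAt (Cm n) x) y - u y,
    fun e he => (pw_smooth h hDv hψ hφ hx hc he).sub (hu e he), ?_⟩
  filter_upwards [hρ, hev, hu2, h.dom_ev hx, at_ev hc] with y h1 h2 h3 h4 h5
  refine ⟨fun e he => ?_, ?_⟩
  · have h6 : ContDiffAt ℝ 2 (fun z => pw Dv ψ φ dl x (chartAt (Cm n) x) (e.symm z)) (e y) :=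
      (pw_smooth h hDv hψ hφ h4 h5 he).of_le two_le_infty
    have h7 : hess (fun y => pw Dv ψ φ dl x (chartAt (Cm n) x) y - u y) e (e y) =
        hess (pw Dv ψ φ dl x (chartAt (Cm n) x)) e (e y) - hess u e (e y) := by
      have h8 : (fun z => pw Dv ψ φ dl x (chartAt (Cm n) x) (e.symm z) - u (e.symm z)) =
          fun z => pw Dv ψ φ dl x (chartAt (Cm n) x) (e.symm z) + (-1 : ℝ) * u (e.symm z) := by
        funext z; ring
      show cHess (fun z => pw Dv ψ φ dl x (chartAt (Cm n) x) (e.symm z) - u (e.symm z)) (e y) = _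
      rw [h8, cHess_add h6 (contDiffAt_const.mul (h3 e he)), cHess_const_mul _ (h3 e he)]
      show hess (pw Dv ψ φ dl x (chartAt (Cm n) x)) e (e y) + ((-1 : ℝ) : ℂ) • hess u e (e y) = _
      rw [Complex.ofReal_neg, Complex.ofReal_one, neg_one_smul, ← sub_eq_add_neg]
    show H713.KD.clsK φ dl (fun i => cv (OD h (Dv i) (hDv i)) (ψ i)) e (e y) - B e (e y) = _
    rw [h7, h2.1 e he, pw_hess h hDv hψ hφ h4 h5 he]
  · rw [h1, hf]
    simp only [Finset.univ_unique, Finset.sum_singleton]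

end Vale.Agent.P281.H342.MFS
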