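import Vale.Agent.P281.H498.KD.Fin
import Vale.Agent.P281.H498.KL.BrA

/-! P281, theorem MFS, block TK: the pairs of norms of two pull-backs, with explicit kernels of the
matrices `b`. -/

open scoped Manifold ContDiff Topology ComplexOrder
open Set Filter Vale.Agent.P281.J Vale.Agent.P272.K Vale.Agent.P272.K.AMP Vale.Agent.P299
open Vale.Agent.P299.H882 (J xi qf)
open Vale.Agent.P272.K.INT (IsClosedForm)

noncomputable section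

namespace Vale.Agent.P281.H342.MFS

open Vale.Agent.P281.H713 Vale.Agent.P281.H713.SA Vale.Agent.P281.H716
open Vale.Agent.P281.H713.KD

section defs

variable {n M : ℕ} {X : Type} [TopologicalSpace X] [ChartedSpace (Cm n) X]

/-- `IsDecPair`, and the kernels of the matrices `b` satisfy `Kr` -/
structure IsDecPairK (Dv : Fin M → Set X) (r : Fin M → X → ℝ) (χ : D.FormM n X) (p μ : ℕ)
    (K : Fin M → ℕ) (Kr : Chart n X → X → Cm n → Prop) (N₀ N₁ : D.FormM n X → X → ℝ) : Prop where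
  smooth : ∀ g, IsKahler g → SmoothFn (n := n) (N₀ g) ∧ SmoothFn (n := n) (N₁ g)
  nonneg : ∀ g x, IsKahler g → 0 ≤ N₀ g x ∧ 0 ≤ N₁ g x
  pos : ∀ g x, IsKahler g → (0 < N₀ g x ↔ 0 < N₀ χ x) ∧ (0 < N₁ g x ↔ 0 < N₁ χ x)
  hol : IsHolNorm (n := n) fun x => N₀ χ x + N₁ χ x
  ne : ∀ i, K i ≠ 0 → ∀ x ∈ Dv i, ¬ ∀ᶠ y in 𝓝 x, y ∈ Dv i → N₀ χ y + N₁ χ y = 0
  good : ∃ 𝒪 : Set X, Dense 𝒪 ∧ ∀ a : ℝ, 0 < a → ∃ C : ℝ, ∀ x ∈ 𝒪, (∀ i, 0 < r i x) ∧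
    ∃ (e : Chart n X) (b : Cm n → Matrix (Fin p) (Fin n) ℂ) (c₀ c₁ : Cm n → ℂ), At e x ∧
      (∀ j l, AnalyticAt ℂ (fun z => b z j l) (e x)) ∧
      AnalyticAt ℂ c₀ (e x) ∧ AnalyticAt ℂ c₁ (e x) ∧
      (∀ g, IsKahler g → ∀ᶠ z in 𝓝 (e x),
        N₀ g (e.symm z) = ‖c₀ z‖ ^ 2 * (∏ i, r i (e.symm z) ^ K i) * gramD (b z) (g e z) ^ μ ∧
        N₁ g (e.symm z) = ‖c₁ z‖ ^ 2 * (∏ i, r i (e.symm z) ^ K i) * gramD (b z) (g e z) ^ μ) ∧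
      (a ≤ N₀ χ x + N₁ χ x → ∀ i, K i ≠ 0 → ∃ l : Fin p → ℂ,
        qf (χ e (e x)) (fun k => xi (fun y => Real.log (r i y)) e (e x) k -
          ∑ j, l j * b (e x) j k) ≤ C) ∧
      ∀ v : Cm n, (∀ k, ∑ l, b (e x) k l * v l = 0) → Kr e x v

theorem IsDecPairK.toDec {Dv : Fin M → Set X} {r : Fin M → X → ℝ} {χ : D.FormM n X} {p μ : ℕ}
    {K : Fin M → ℕ} {Kr : Chart n X → X → Cm n → Prop} {N₀ N₁ : D.FormM n X → X → ℝ}
    (h : IsDecPairK Dv r χ p μ K Kr N₀ N₁) : IsDecPair Dv r χ p μ K N₀ N₁ := by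
  obtain ⟨𝒪, h1, h2⟩ := h.good
  refine ⟨h.smooth, h.nonneg, h.pos, h.hol, h.ne, 𝒪, h1, fun a ha => ?_⟩
  obtain ⟨C, hC⟩ := h2 a ha
  refine ⟨C, fun x hx => ?_⟩
  obtain ⟨h3, e, b, c₀, c₁, h4, h5, h6, h7, h8, h9, -⟩ := hC x hx
  exact ⟨h3, e, b, c₀, c₁, h4, h5, h6, h7, h8, h9⟩

theorem IsDecPairK.mono {Dv : Fin M → Set X} {r : Fin M → X → ℝ} {χ : D.FormM n X} {p μ : ℕ}
    {K : Fin M → ℕ} {Kr Kr' : Chart n X → X → Cm n → Prop} {N₀ N₁ : D.FormM n X → X → ℝ}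
    (h : IsDecPairK Dv r χ p μ K Kr N₀ N₁) (hK : ∀ e x v, At e x → Kr e x v → Kr' e x v) :
    IsDecPairK Dv r χ p μ K Kr' N₀ N₁ := by
  obtain ⟨𝒪, h1, h2⟩ := h.good
  refine ⟨h.smooth, h.nonneg, h.pos, h.hol, h.ne, 𝒪, h1, fun a ha => ?_⟩
  obtain ⟨C, hC⟩ := h2 a ha
  refine ⟨C, fun x hx => ?_⟩
  obtain ⟨h3, e, b, c₀, c₁, h4, h5, h6, h7, h8, h9, h10⟩ := hC x hx
  exact ⟨h3, e, b, c₀, c₁, h4, h5, h6, h7, h8, h9, fun v hv => hK e x v h4 (h10 v hv)⟩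

end defs

end Vale.Agent.P281.H342.MFS

namespace Vale.Agent.P281.H342.MFS

open Vale.Agent.P281 Vale.Agent.P281.MF Vale.Agent.P281.ISO Vale.Agent.P281.H713.SA
open Vale.Agent.P281.H716 Vale.Agent.P299.D Vale.Agent.P281.H787 Vale.Agent.P281.H713.KD
open Vale.Agent.P281.H498

set_option linter.unusedSectionVars false

variable {n p M μ : ℕ} {X Z Y : Type} [TopologicalSpace X]
  [ChartedSpace (Cm n) X] [IsManifold 𝓘(ℂ, Cm n) ω X]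
  [TopologicalSpace Z] [ChartedSpace (Cm n) Z] [IsManifold 𝓘(ℂ, Cm n) ω Z]
  [TopologicalSpace Y] [ChartedSpace (Cm p) Y] [IsManifold 𝓘(ℂ, Cm p) ω Y]
  {j : Z → X} {f : Z → Y} {S : Set Y} {Dv : Fin M → Set X}
  {r : Fin M → X → ℝ} {R : Fin M → FormM n X} {e : Chart n X} {x : X}

theorem mat_ker {A : Cm n →L[ℂ] Cm p} {v : Cm n} (h : ∀ k, ∑ l, mat A k l * v l = 0) :
    A v = 0 := by
  funext k
  have h4 : v = ∑ a : Fin n, v a • Pi.single a (1 : ℂ) := by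
    funext i
    simp [Finset.sum_apply, Pi.single_apply]
  have h5 := h k
  conv_lhs => rw [h4]
  rw [map_sum, Finset.sum_apply]
  rw [Pi.zero_apply, ← h5]
  refine Finset.sum_congr rfl fun a _ => ?_
  rw [map_smul, Pi.smul_apply, smul_eq_mul, mul_comm]
  rfl

/-- the kernel of the differential of `f`, in the chart `e` at `x` -/
def KerD (n p : ℕ) {X Z Y : Type} [TopologicalSpace X] [ChartedSpace (Cm n) X]
    [TopologicalSpace Z] [ChartedSpace (Cm n) Z] [TopologicalSpace Y] [ChartedSpace (Cm p) Y]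
    (j : Z → X) (f : Z → Y) (S : Set Y) (e : Chart n X) (x : X) (v : Cm n) : Prop :=
  ∃ (z : Z) (w : Cm n), j z = x ∧ f z ∉ S ∧ dV (Cm n) (fun z => e (j z)) z w = v ∧
    dM (Cm n) (Cm p) f z w = 0

theorem bm_ker (hs : Setup n p j f S Dv) {z : Z} (hz : f z ∉ S) (h : At e (j z)) {v : Cm n}
    (hv : ∀ k, ∑ l, bm n p j f e z (e (j z)) k l * v l = 0) : KerD n p j f S e (j z) v := by
  have h1 := mat_ker hv
  rw [e.left_inv h.2, jinv_j hs.emb.injective] at h1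
  have h2 : Am n p j f e z z v = dV (Cm n) (fun w => (chartAt (Cm p) (f z) : Y → Cm p) (f w)) z
    (Ring.inverse (dV (Cm n) (fun w => e (j w)) z) v) := rfl
  rw [h2] at h1
  have hu := isUnit_ej hs.hj hs.inj h
  have h4 : (dV (Cm n) (fun z => e (j z)) z) * (Ring.inverse (dV (Cm n) (fun z => e (j z)) z)) =
    1 := Ring.mul_inverse_cancel _ hu
  refine ⟨z, Ring.inverse (dV (Cm n) (fun z => e (j z)) z) v, rfl, hz, ?_, ?_⟩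
  · exact congrArg (fun T : Cm n →L[ℂ] Cm n => T v) h4
  · rw [dV_comp (h := (chartAt (Cm p) (f z) : Y → Cm p)) (HolV.chart (mem_chart_source _ _))
      (hs.hf z), dV_chartAt] at h1
    exact h1

/-- **the pair of norms of two pull-backs** -/
theorem decPairK_of (norm : NormPart) (gram : GramPart) (exact : ExactPart) [T2Space X]
    [CompactSpace X] {χ : FormM n X} (hχ : IsKahler χ) (hset : Setup n p j f S Dv)
    (hR : IsBd Dv r R) (hinj : Function.Injective Dv) (hDpr : ∀ i, IsPrimeDivisor (Cm n) (Dv i))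
    (hμ0 : 0 < μ) {K' : Fin M → ℕ} {s₀ s₁ : Y → ℂ} {τ₀ τ₁ : Ten n (μ * p) X}
    (hT₀' : IsTenK Dv K' τ₀) (hT₁' : IsTenK Dv K' τ₁) (hsec₀ : IsSec p μ S s₀)
    (hsec₁ : IsSec p μ S s₁) (hp₀ : IsPull p μ j f S Dv s₀ τ₀) (hp₁ : IsPull p μ j f S Dv s₁ τ₁)
    (key : ∀ (K : Fin M → ℕ) (s : Y → ℂ) (τ : Ten n (μ * p) X), IsPull p μ j f S Dv s τ →
      (∀ i, K i ≠ 0 → ∀ z, j z ∈ Dv i → f z ∈ S) → KeyAt Dv K τ) :
    ∃ (K : Fin M → ℕ) (N₀ N₁ : FormM n X → X → ℝ), (∀ i, K i ≤ K' i) ∧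
      IsDecPairK Dv r χ p μ K (KerD n p j f S) N₀ N₁ ∧
      (∀ g x, IsKahler g → 0 < N₀ g x → 0 < N₁ g x →
        Real.log (N₁ g x) - Real.log (N₀ g x) = Real.log (N₁ χ x) - Real.log (N₀ χ x)) ∧
      ∀ z, f z ∉ S → (∀ i, j z ∉ Dv i) → Function.Surjective (dM (Cm n) (Cm p) f z) →
        s₀ (f z) ≠ 0 → s₁ (f z) ≠ 0 → 0 < N₀ χ (j z) ∧ 0 < N₁ χ (j z) ∧
          Real.log (N₁ χ (j z)) - Real.log (N₀ χ (j z)) =
            Real.log (‖s₁ (f z)‖ ^ 2) - Real.log (‖s₀ (f z)‖ ^ 2) := by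
  classical
  obtain ⟨K, hKle, hT₀, hT₁, hex⟩ := exact n (μ * p) M X Dv hinj hDpr
    (fun e x hx => by
      obtain ⟨g, -, hg, -⟩ := eqs_exist hR hx
      exact ⟨g, hg⟩) K' τ₀ τ₁ hT₀' hT₁'
  obtain ⟨N₀, N₁, hN₀, hN₁, hhol⟩ := norm n (μ * p) M X Dv r R hR K τ₀ τ₁ hT₀ hT₁
    (((p.factorial : ℝ) ^ μ)⁻¹) (by positivity)
  have hover : ∀ i, K i ≠ 0 → ∀ z, j z ∈ Dv i → f z ∈ S := fun i hi z hz =>
    over_S hset hR hT₀ hT₁ hsec₀ hsec₁ hp₀ hp₁ i hi (hex i hi) hz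
  have hkey₀ := key K s₀ τ₀ hp₀ hover
  have hkey₁ := key K s₁ τ₁ hp₁ hover
  refine ⟨K, N₀, N₁, hKle, ⟨?_, ?_, ?_, hhol χ hχ, ?_, ?_⟩, ?_, ?_⟩
  · exact fun g hg => ⟨hN₀.smooth g hg, hN₁.smooth g hg⟩
  · exact fun g x hg => ⟨hN₀.nonneg g x hg, hN₁.nonneg g x hg⟩
  · intro G x hG
    have h : At (chartAt (Cm n) x : Chart n X) x := AMP.at_chartAt x
    obtain ⟨g, ψ, hg, hψ⟩ := eqs_exist hR h
    obtain ⟨a₀, ha₀⟩ := hT₀.num _ x h g hg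
    obtain ⟨a₁, ha₁⟩ := hT₁.num _ x h g hg
    exact ⟨(norm_pos hN₀ hG h hg ha₀).trans (norm_pos hN₀ hχ h hg ha₀).symm,
      (norm_pos hN₁ hG h hg ha₁).trans (norm_pos hN₁ hχ h hg ha₁).symm⟩
  · intro i hi x hx hcon
    have h : At (chartAt (Cm n) x : Chart n X) x := AMP.at_chartAt x
    obtain ⟨g, ψ, hg, hψ⟩ := eqs_exist hR h
    obtain ⟨a₀, ha₀⟩ := hT₀.num _ x h g hg
    obtain ⟨a₁, ha₁⟩ := hT₁.num _ x h g hg
    refine hex i hi _ x h hx g a₀ a₁ hg ha₀ ha₁ ?_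
    filter_upwards [hcon, hg.ev h, ha₀.ev h, ha₁.ev h,
      (chartAt (Cm n) x).open_source.mem_nhds h.2] with y h1 h2 h3 h4 h5 hy
    have h6 := h1 hy
    have h7 := hN₀.nonneg χ y hχ
    have h8 := hN₁.nonneg χ y hχ
    have hy' : At (chartAt (Cm n) x : Chart n X) y := ⟨h.1, h5⟩
    exact ⟨(hN₀.zero χ _ y g a₀ hχ hy' h2 h3).1 (by linarith),
      (hN₁.zero χ _ y g a₁ hχ hy' h2 h4).1 (by linarith)⟩
  · refine ⟨{x | (∃ z, j z = x ∧ f z ∉ S) ∧ ∀ i, x ∉ Dv i}, hset.dense, fun a ha => ?_⟩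
    obtain ⟨C, hC⟩ := bound_all hset hR hχ hT₀ hT₁ hsec₀ hsec₁ hp₀ hp₁ hkey₀ hkey₁ ⟨0, hμ0⟩
      hN₀ hN₁ ha
    refine ⟨C, ?_⟩
    rintro x ⟨⟨z, rfl, hz⟩, hzD⟩
    obtain ⟨e, h, hbd⟩ := hC (j z)
    obtain ⟨C₀, hC₀h, -, hC₀⟩ := exists_coef hset hsec₀ hz
    obtain ⟨C₁, hC₁h, -, hC₁⟩ := exists_coef hset hsec₁ hz
    refine ⟨fun i => r_pos hR (hzD i), e, bm n p j f e z, fun y => C₀ (jinv j z (e.symm y)),
      fun y => C₁ (jinv j z (e.symm y)), h, fun a l => bm_analytic hset h a l,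
      analytic_jinv hset h hC₀h, analytic_jinv hset h hC₁h, fun G hG => ?_, fun k1 i hi => ?_,
      fun v hv => bm_ker hset hz h hv⟩
    · filter_upwards [norm_form gram hset hR hT₀ hp₀ hN₀ hC₀ hz hzD h hG,
        norm_form gram hset hR hT₁ hp₁ hN₁ hC₁ hz hzD h hG] with y h1 h2 using ⟨h1, h2⟩
    · exact hbd k1 z rfl hz hzD i hi
  · intro G x hG h0 h1
    have hq := norm_quot gram hset hR hT₀ hT₁ hsec₀ hsec₁ hp₀ hp₁ hN₀ hN₁ hχ hG x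
    have h : At (chartAt (Cm n) x : Chart n X) x := AMP.at_chartAt x
    obtain ⟨g, ψ, hg, hψ⟩ := eqs_exist hR h
    obtain ⟨a₀, ha₀⟩ := hT₀.num _ x h g hg
    obtain ⟨a₁, ha₁⟩ := hT₁.num _ x h g hg
    have h2 : 0 < N₀ χ x := (norm_pos hN₀ hχ h hg ha₀).2 ((norm_pos hN₀ hG h hg ha₀).1 h0)
    have h3 : 0 < N₁ χ x := (norm_pos hN₁ hχ h hg ha₁).2 ((norm_pos hN₁ hG h hg ha₁).1 h1)
    have h4 := congrArg Real.log hq
    rw [Real.log_mul h1.ne' h2.ne', Real.log_mul h3.ne' h0.ne'] at h4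
    linarith
  · intro z hz hzD hsurj hs0 hs1
    have h0 := norm_pos_good hset hR hT₀ hp₀ hN₀ hχ hz hzD hsurj hs0
    have h1 := norm_pos_good hset hR hT₁ hp₁ hN₁ hχ hz hzD hsurj hs1
    exact ⟨h0, h1, log_good gram hset hR hT₀ hT₁ hsec₀ hsec₁ hp₀ hp₁ hN₀ hN₁ hχ hz hzD h0 h1⟩

end Vale.Agent.P281.H342.MFS
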