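import Vale.Agent.P281.H342.MFS.Adj
import Vale.Agent.P281.H368.MFS.Defs
import Vale.Agent.P299.H956.D1.RJac

/-! P281, theorem MFS, blocks ME and MF: the function `ρ` of a singular volume form, on `X` and on
the fibre `F`. -/

open scoped Manifold ContDiff Topology ComplexOrder Matrix
open Set Filter Vale.Agent.P281 Vale.Agent.P272.K Vale.Agent.P299.H223
open Vale.Agent.P284.H248 Vale.Agent.P285.TM Vale.Agent.P285.H591.TM
open Vale.Agent.P281.H949.SA Vale.Agent.P281.H716 Vale.Agent.P281.H716.IsSys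
open Vale.Agent.P272.K.AMP (hess)
open Vale.Agent.P272.K.INT (IsClosedForm)
open Vale.Agent.P281.H342.KD Vale.Agent.P281.H342.KG

set_option linter.all false

noncomputable section

namespace Vale.Agent.P281.H342.MFS

open Vale.Agent.P281.H949.GM (holAt_chart holAt_ev tsymm ev_of_symm cHess_change)

section unit

variable {n : ℕ} {X : Type} [TopologicalSpace X] [ChartedSpace (Cm n) X]
  [IsManifold 𝓘(ℂ, Cm n) ω X]

lemma hlogU {η : X → ℂ} {z : X} {e : Chart n X} (h1 : J.HolAt (Cm n) η z) (h2 : η z ≠ 0)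
    (he : At e z) : ContDiffAt ℝ ∞ (fun y => Real.log (‖η (e.symm y)‖ ^ 2)) (e z) := by
  have h3 : ContDiffAt ℂ ω (fun y (_ : Fin 1) => η (e.symm y)) (e z) :=
    contDiffAt_pi.2 fun _ => holAt_chart he h1
  have h4 := smooth_log_nsq h3 (by
    intro h0
    have h5 := congrFun h0 0
    simp only [he.left_inv] at h5
    exact h2 h5)
  have h5 : (fun y => Real.log (‖η (e.symm y)‖ ^ 2)) =
      fun y => Real.log (nsq fun _ : Fin 1 => η (e.symm y)) := by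
    funext y
    simp [nsq]
  rw [h5]
  exact h4

lemma hess_logU {η : X → ℂ} {z : X} {e : Chart n X} (h1 : J.HolAt (Cm n) η z) (h2 : η z ≠ 0)
    (he : At e z) : hess (fun y => Real.log (‖η y‖ ^ 2)) e (e z) = 0 :=
  cHess_log_norm_sq (holAt_chart he h1) (by rw [he.left_inv]; exact h2)

lemma cHess_lin {f g : Cm n → ℝ} {z : Cm n} (c : ℝ) (hf : ContDiffAt ℝ 2 f z)
    (hg : ContDiffAt ℝ 2 g z) : cHess (fun y => f y + c * g y) z =
      cHess f z + (c : ℂ) • cHess g z := by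
  rw [cHess_add hf (contDiffAt_const.mul hg), cHess_const_mul _ hg]

/-- a unit can be absorbed by the weight -/
theorem locAt_unit {m : ℕ} (hm : 0 < m) {Λ : Chart n X → Cm n → Matrix (Fin n) (Fin n) ℂ}
    {ρ : X → ℝ} {x : X} {r : ℕ} {g : Fin r → X → ℂ} {a : Fin r → ℕ} {w : X → ℂ}
    (hw : J.HolAt (Cm n) w x) (hw0 : w x ≠ 0)
    (h : H167.KG.LocAt m Λ ρ x g a (fun _ : Fin 1 => w)) :
    H167.KG.LocAt m Λ ρ x g a (fun (_ : Fin 1) (_ : X) => (1 : ℂ)) := by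
  obtain ⟨ψ, h1, h2⟩ := h.loc
  refine ⟨h.holg, fun _ => contMDiffAt_const, ⟨0, one_ne_zero⟩,
    fun y => ψ y + (-(m : ℝ)⁻¹) * Real.log (‖w y‖ ^ 2), fun e he =>
      (h1 e he).add (contDiffAt_const.mul (hlogU hw hw0 he)), ?_⟩
  have hψ2 := smooth2_ev (ψ := ψ) fun e he => (h1 e he).of_le two_le_infty
  filter_upwards [h2, holAt_ev hw, hw.continuousAt.eventually_ne hw0, hψ2] with y h3 h4 h5 h6
  refine ⟨fun e he => ?_, ?_⟩
  · have h7 : hess (fun y => ψ y + (-(m : ℝ)⁻¹) * Real.log (‖w y‖ ^ 2)) e (e y) =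
        hess ψ e (e y) + ((-(m : ℝ)⁻¹ : ℝ) : ℂ) • hess (fun y => Real.log (‖w y‖ ^ 2)) e (e y) :=
      cHess_lin _ (h6 e he) ((hlogU h4 h5 he).of_le two_le_infty)
    rw [h7, hess_logU h4 h5 he, smul_zero, add_zero]
    exact h3.1 e he
  · rw [h3.2]
    simp only [Finset.univ_unique, Finset.sum_singleton, norm_one, one_pow, mul_one]
    have h7 : (0 : ℝ) < ‖w y‖ ^ 2 := pow_pos (norm_pos_iff.2 h5) 2
    have h8 : -(m : ℝ) * (ψ y + -(m : ℝ)⁻¹ * Real.log (‖w y‖ ^ 2)) =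
        -m * ψ y + Real.log (‖w y‖ ^ 2) := by
      have : (m : ℝ) ≠ 0 := by exact_mod_cast hm.ne'
      field_simp
      ring
    rw [h8, Real.exp_add, Real.exp_log h7]
    ring

end unit

/-- **Row M-ME**: the local form of `ρ`. -/
theorem metM {n : ℕ} {X : Type} [TopologicalSpace X] [ChartedSpace (Cm n) X]
    [IsManifold 𝓘(ℂ, Cm n) ω X] {κ : Type} {eqn : κ → X → (X → ℂ) → Prop} {T : Finset κ}
    {M : ℕ} {Dv : Fin M → κ} {ψ : Fin M → X → X → ℝ} {φ : Chart n X → Cm n → ℝ} {k : κ → ℕ}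
    {m : ℕ} {x : X} {dl : Fin M → ℝ} {W : X → ℝ}
    (h : IsSys n eqn T) (hprod : ∀ f : κ → ℂ, ∏ i, f (Dv i) = ∏ D ∈ T, f D)
    (hDv : ∀ i, Dv i ∈ T) (hψ : ∀ i, Wt (OD h (Dv i) (hDv i)) (ψ i)) (hφ : IsCanonicalMetric φ)
    (hk : ∀ D, k D ≠ 0 → D ∈ T) (hkd : ∀ i, (k (Dv i) : ℝ) = m * dl i)
    {α θ : Chart n X → Cm n → Matrix (Fin n) (Fin n) ℂ} {r : ℕ} {g : Fin r → X → ℂ}
    {a : Fin r → ℕ} (hV : H368.MFS.VolLoc n m eqn k W α θ x g a) :
    ∃ w : X → ℂ, J.HolAt (Cm n) w x ∧ w x ≠ 0 ∧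
      H167.KG.LocAt m (fun e z => H713.KD.clsK φ dl
        (fun i => cv (OD h (Dv i) (hDv i)) (ψ i)) e z - (θ e z - α e z))
        (rhoW h Dv ψ φ k m W) x g a (fun _ : Fin 1 => w) := by
  obtain ⟨T', q, u, h1, h2, h3, h4⟩ := hV.loc
  exact locW (B := fun e z => θ e z - α e z) h hprod hDv hψ hφ hk hkd h1 h2 hV.holg h3 h4

/-- **Row M-ME**, with the unit absorbed by the weight. -/
theorem metM_one {n : ℕ} {X : Type} [TopologicalSpace X] [ChartedSpace (Cm n) X]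
    [IsManifold 𝓘(ℂ, Cm n) ω X] {κ : Type} {eqn : κ → X → (X → ℂ) → Prop} {T : Finset κ}
    {M : ℕ} {Dv : Fin M → κ} {ψ : Fin M → X → X → ℝ} {φ : Chart n X → Cm n → ℝ} {k : κ → ℕ}
    {m : ℕ} {x : X} {dl : Fin M → ℝ} {W : X → ℝ}
    (h : IsSys n eqn T) (hprod : ∀ f : κ → ℂ, ∏ i, f (Dv i) = ∏ D ∈ T, f D)
    (hDv : ∀ i, Dv i ∈ T) (hψ : ∀ i, Wt (OD h (Dv i) (hDv i)) (ψ i)) (hφ : IsCanonicalMetric φ)
    (hk : ∀ D, k D ≠ 0 → D ∈ T) (hkd : ∀ i, (k (Dv i) : ℝ) = m * dl i) (hm : 0 < m)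
    {α θ : Chart n X → Cm n → Matrix (Fin n) (Fin n) ℂ} {r : ℕ} {g : Fin r → X → ℂ}
    {a : Fin r → ℕ} (hV : H368.MFS.VolLoc n m eqn k W α θ x g a) :
    H167.KG.LocAt m (fun e z => H713.KD.clsK φ dl
      (fun i => cv (OD h (Dv i) (hDv i)) (ψ i)) e z - (θ e z - α e z))
      (rhoW h Dv ψ φ k m W) x g a (fun (_ : Fin 1) (_ : X) => (1 : ℂ)) := by
  obtain ⟨w, hw, hw0, hL⟩ := metM h hprod hDv hψ hφ hk hkd hV
  exact locAt_unit hm hw hw0 hL

end Vale.Agent.P281.H342.MFS
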