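import Vale.Agent.P281.H342.MFS.Met

/-! P281, theorem MFS, block MF: the restriction of a singular volume form to the fibre `F`. -/

open scoped Manifold ContDiff Topology ComplexOrder Matrix
open Set Filter Vale.Agent.P281 Vale.Agent.P281.MF Vale.Agent.P272.K Vale.Agent.P299.H223
open Vale.Agent.P284.H248 Vale.Agent.P285.TM Vale.Agent.P285.H591.TM
open Vale.Agent.P281.H949.SA Vale.Agent.P281.H716 Vale.Agent.P281.H716.IsSys
open Vale.Agent.P272.K.AMP (hess)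
open Vale.Agent.P272.K.INT (IsClosedForm)
open Vale.Agent.P281.H342.KD Vale.Agent.P281.H342.KG

set_option linter.all false

noncomputable section

namespace Vale.Agent.P281.H342.MFS

open Vale.Agent.P281.H949.GM (holAt_chart holAt_ev tsymm ev_of_symm cHess_change)

section pull

variable {n d : ℕ} {X F : Type} [TopologicalSpace X] [ChartedSpace (Cm n) X]
  [IsManifold 𝓘(ℂ, Cm n) ω X] [TopologicalSpace F] [ChartedSpace (Cm d) F]
  [IsManifold 𝓘(ℂ, Cm d) ω F] {ι : F → X}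

lemma rep_ι (hι : ContMDiff 𝓘(ℂ, Cm d) 𝓘(ℂ, Cm n) ω ι) {e : Chart d F} {E : Chart n X} {t : F}
    (h : At e t) (hE : At E (ι t)) : ContDiffAt ℂ ω (fun z => E (ι (e.symm z))) (e t) := by
  have h1 : HolV (Cm n) (E : X → Cm n) (ι t) :=
    contMDiffAt_of_mem_maximalAtlas (IsManifold.subset_maximalAtlas hE.1) hE.2
  exact holV_chart h (HolV.comp (f := ι) h1 (hι t))

/-- composition of a smooth function with `ι` -/
lemma smooth_ι (hι : ContMDiff 𝓘(ℂ, Cm d) 𝓘(ℂ, Cm n) ω ι) {u : X → ℝ} {N : WithTop ℕ∞}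
    (hN : N ≤ ω) {e : Chart d F} {t : F}
    (h : At e t) (hu : ∀ E : Chart n X, At E (ι t) → ContDiffAt ℝ N (fun z => u (E.symm z)) (E (ι t))) :
    ContDiffAt ℝ N (fun z => u (ι (e.symm z))) (e t) := by
  have hE : At (chartAt (Cm n) (ι t)) (ι t) := ⟨chart_mem_atlas _ _, mem_chart_source _ _⟩
  set E : Chart n X := chartAt (Cm n) (ι t)
  have h1 := (rep_ι hι h hE).restrict_scalars ℝ
  have h2 : ContDiffAt ℝ N (fun z => u (E.symm (E (ι (e.symm z))))) (e t) := by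
    refine ContDiffAt.comp (e t) (g := fun z => u (E.symm z)) ?_ (h1.of_le hN)
    rw [h.left_inv]
    exact hu E hE
  refine h2.congr_of_eventuallyEq ?_
  have h3 : ContinuousAt (fun z => ι (e.symm z)) (e t) := by
    refine ContinuousAt.comp (g := ι) ?_ (e.continuousAt_symm h.mem_target)
    exact hι.continuous.continuousAt
  have h4 : ι (e.symm (e t)) ∈ E.source := by
    rw [h.left_inv]
    exact hE.2
  filter_upwards [h3.preimage_mem_nhds (E.open_source.mem_nhds h4)] with z hz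
  rw [E.left_inv hz]

/-- the complex Hessian of a pull-back -/
lemma cHess_ι (hι : ContMDiff 𝓘(ℂ, Cm d) 𝓘(ℂ, Cm n) ω ι) {u : X → ℝ} {e : Chart d F} {t : F}
    (h : At e t) (hu : ∀ E : Chart n X, At E (ι t) →
      ContDiffAt ℝ 2 (fun z => u (E.symm z)) (E (ι t))) :
    cHess (fun z => u (ι (e.symm z))) (e t) =
      (H368.MFS.jacI ι e (chartAt (Cm n) (ι t)) t).transpose *
        cHess (fun z => u ((chartAt (Cm n) (ι t)).symm z)) (chartAt (Cm n) (ι t) (ι t)) *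
        (H368.MFS.jacI ι e (chartAt (Cm n) (ι t)) t).map (starRingEnd ℂ) := by
  have hE : At (chartAt (Cm n) (ι t)) (ι t) := ⟨chart_mem_atlas _ _, mem_chart_source _ _⟩
  set E : Chart n X := chartAt (Cm n) (ι t)
  have h1 := rep_ι hι h hE
  have h5 : E (ι (e.symm (e t))) = E (ι t) := by
    rw [h.left_inv]
  have h2 := Vale.Agent.P299.H956.cHess_compR (f := fun z => u (E.symm z))
    (τ := fun z => E (ι (e.symm z))) (z := e t) (by rw [h5]; exact hu E hE) h1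
  rw [h5] at h2
  have h3 : ContinuousAt (fun z => ι (e.symm z)) (e t) := by
    refine ContinuousAt.comp (g := ι) ?_ (e.continuousAt_symm h.mem_target)
    exact hι.continuous.continuousAt
  have h4 : ι (e.symm (e t)) ∈ E.source := by
    rw [h.left_inv]
    exact hE.2
  have h6 : (fun z => u (ι (e.symm z))) =ᶠ[𝓝 (e t)]
      fun z => u (E.symm (E (ι (e.symm z)))) := by
    filter_upwards [h3.preimage_mem_nhds (E.open_source.mem_nhds h4)] with z hz
    rw [E.left_inv hz]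
  rw [cHess_congr h6]
  exact h2

end pull

/-- **Row M-MF**: the restriction of a singular volume form to `F`. -/
theorem volFibM {n d m : ℕ} {X F : Type} [TopologicalSpace X] [ChartedSpace (Cm n) X]
    [IsManifold 𝓘(ℂ, Cm n) ω X] [TopologicalSpace F] [ChartedSpace (Cm d) F]
    [IsManifold 𝓘(ℂ, Cm d) ω F] {ι : F → X} (hι : ContMDiff 𝓘(ℂ, Cm d) 𝓘(ℂ, Cm n) ω ι) {G : F → ℂ}
    {t : F} (hG : ∃ η : F → ℂ, HolV (Cm d) η t ∧ η t ≠ 0 ∧
      ∀ᶠ t' in 𝓝 t, jac (Cm n) (chartAt (Cm n) (ι t)) (ι t') * G t' =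
        η t' * jac (Cm d) (chartAt (Cm d) t) t')
    {k : Set X → ℕ} {W : X → ℝ} {α θ : Chart n X → Cm n → Matrix (Fin n) (Fin n) ℂ}
    {r : ℕ} {g : Fin r → X → ℂ} {a : Fin r → ℕ}
    (hV : H368.MFS.VolLoc n m (fun (D : Set X) z g => J.IsLocalEq (Cm n) D g z) k W α θ (ι t) g a)
    (hdif : ∀ l, J.dif (Cm d) (fun t => g l (ι t)) t ≠ 0) :
    H368.MFS.VolLoc d m (fun (D : Set X) t g => ∃ e, J.IsLocalEq (Cm n) D e (ι t) ∧
      ∀ᶠ t' in 𝓝 t, g t' = e (ι t')) k (fun t => W (ι t) * ‖G t ^ m‖ ^ 2)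
      (H368.MFS.pull ι α) (H368.MFS.pull ι θ) t (fun l t => g l (ι t)) a := by
  obtain ⟨T', q, u, h1, h2, h3, h4⟩ := hV.loc
  obtain ⟨η, hη, hη0, hη1⟩ := hG
  have hηh : ∀ᶠ z in 𝓝 t, J.HolAt (Cm d) η z ∧ η z ≠ 0 :=
    (holAt_ev hη).and (hη.continuousAt.eventually_ne hη0)
  have hu2 := smooth2_ev (ψ := u) fun e he => (h3 e he).of_le two_le_infty
  have hιc : ContinuousAt ι t := hι.continuous.continuousAt
  refine ⟨fun l => ⟨HolV.comp (f := ι) (hV.holg l).1 (hι t), hdif l⟩, T', fun D z => q D (ι z),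
    fun z => u (ι z) + 1 * Real.log (‖η z‖ ^ 2), h1,
    fun D hD => ⟨q D, h2 D hD, Eventually.of_forall fun _ => rfl⟩, fun c hc => ?_, ?_⟩
  · exact (smooth_ι hι (by exact le_top) hc h3).add (contDiffAt_const.mul (hlogU hη hη0 hc))
  · filter_upwards [hιc.eventually h4, hηh, hη1, hιc.eventually hu2] with z h5 h6 h7 h8
    refine ⟨fun c hc => ?_, fun h9 => ?_⟩
    · have e1 : ContDiffAt ℝ 2 (fun y => u (ι (c.symm y))) (c z) :=
        smooth_ι hι (by exact le_top) hc h8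
      have e2 := (hlogU h6.1 h6.2 hc).of_le two_le_infty
      have e3 : cHess (fun y => u (ι (c.symm y)) + 1 * Real.log (‖η (c.symm y)‖ ^ 2)) (c z) =
          cHess (fun y => u (ι (c.symm y))) (c z) +
            ((1 : ℝ) : ℂ) • cHess (fun y => Real.log (‖η (c.symm y)‖ ^ 2)) (c z) :=
        cHess_lin _ e1 e2
      have e4 : cHess (fun y => Real.log (‖η (c.symm y)‖ ^ 2)) (c z) = 0 := hess_logU h6.1 h6.2 hc
      show _ = cHess (fun y => u (ι (c.symm y)) + 1 * Real.log (‖η (c.symm y)‖ ^ 2)) (c z)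
      rw [e3, e4, smul_zero, add_zero, cHess_ι hι hc h8,
        ← h5.1 (chartAt (Cm n) (ι z)) ⟨chart_mem_atlas _ _, mem_chart_source _ _⟩]
      unfold H368.MFS.pull
      rw [hc.left_inv, Matrix.mul_sub, Matrix.sub_mul]
    · have e1 := h5.2 h9
      have e2 : (0 : ℝ) < ‖η z‖ ^ 2 := pow_pos (norm_pos_iff.2 h6.2) 2
      have e3 : Real.exp (m * (u (ι z) + 1 * Real.log (‖η z‖ ^ 2))) =
          Real.exp (m * u (ι z)) * ‖η z ^ m‖ ^ 2 := by
        rw [one_mul, mul_add, Real.exp_add, Real.exp_nat_mul (Real.log _), Real.exp_log e2,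
          norm_pow, ← pow_mul, ← pow_mul, mul_comm 2 m]
      have e4 : ‖jac (Cm n) (chartAt (Cm n) (ι t) : X → Cm n) (ι z) ^ m‖ ^ 2 * ‖G z ^ m‖ ^ 2 =
          ‖η z ^ m‖ ^ 2 * ‖jac (Cm d) (chartAt (Cm d) t : F → Cm d) z ^ m‖ ^ 2 := by
        rw [← mul_pow, ← norm_mul, ← mul_pow, h7, mul_pow, norm_mul, mul_pow]
      show W (ι z) * ‖G z ^ m‖ ^ 2 * ‖∏ D ∈ T', q D (ι z) ^ k D‖ ^ 2 =
        ‖∏ i, g i (ι z) ^ a i‖ ^ 2 * Real.exp (m * (u (ι z) + 1 * Real.log (‖η z‖ ^ 2))) *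
          ‖jac (Cm d) (chartAt (Cm d) t : F → Cm d) z ^ m‖ ^ 2
      have e5 : W (ι z) * ‖∏ D ∈ T', q D (ι z) ^ k D‖ ^ 2 =
        ‖∏ i, g i (ι z) ^ a i‖ ^ 2 * Real.exp (m * u (ι z)) *
          ‖jac (Cm n) (chartAt (Cm n) (ι t) : X → Cm n) (ι z) ^ m‖ ^ 2 := e1
      rw [e3]
      linear_combination (‖G z ^ m‖ ^ 2) * e5 +
        (‖∏ i, g i (ι z) ^ a i‖ ^ 2 * Real.exp (m * u (ι z))) * e4

end Vale.Agent.P281.H342.MFS
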