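import Vale.Agent.P281.H342.KG.ME4
import Vale.Agent.P285.H16.Null

/-! P281, theorem MFS, block F: the norm of a section of `m (K_X + Δ)` is a singular metric of
`K_X + Δ` with semipositive curvature. -/

open scoped Manifold ContDiff Topology ComplexOrder Matrix
open Set Filter MeasureTheory Vale.Agent.P281 Vale.Agent.P272.K Vale.Agent.P299.H223
open Vale.Agent.P284.H248 Vale.Agent.P285.TM Vale.Agent.P285.H591.TM
open Vale.Agent.P281.H949.SA Vale.Agent.P281.H716 Vale.Agent.P281.H716.IsSys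
open Vale.Agent.P272.K.AMP (hess)
open Vale.Agent.P272.K.INT (IsClosedForm)
open Vale.Agent.P281.H342.KD Vale.Agent.P281.H342.KG

set_option linter.all false

noncomputable section

namespace Vale.Agent.P281.H342.MFS

open Vale.Agent.P281.H949.GM (holAt_chart holAt_ev tsymm ev_of_symm cHess_change)

variable {n : ℕ} {X : Type} [TopologicalSpace X] [ChartedSpace (Cm n) X]
  [IsManifold 𝓘(ℂ, Cm n) ω X] {κ : Type} {eqn : κ → X → (X → ℂ) → Prop} {T : Finset κ}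
  {M : ℕ} {Dv : Fin M → κ} {ψ : Fin M → X → X → ℝ} {φ : Chart n X → Cm n → ℝ} {k : κ → ℕ} {m : ℕ}
  {e c : Chart n X} {x p : X} {dl : Fin M → ℝ} {s : X → ℂ}

/-- the norm of a section near a point -/
lemma nrm_near (h : IsSys n eqn T) (hprod : ∀ f : κ → ℂ, ∏ i, f (Dv i) = ∏ D ∈ T, f D)
    (hDv : ∀ i, Dv i ∈ T) (hψ : ∀ i, Wt (OD h (Dv i) (hDv i)) (ψ i)) (hφ : IsCanonicalMetric φ)
    (hk : ∀ D, k D ≠ 0 → D ∈ T) (hkd : ∀ i, (k (Dv i) : ℝ) = m * dl i)
    (hs : J.IsSection (Cm n) eqn m k s) (x : X) :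
    ∀ᶠ y in 𝓝 x, nrm h Dv ψ φ k m s y =
      ‖cR eqn T (h.GG k x) m s (chartAt (Cm n) x) y‖ ^ 2 *
        Real.exp (-(m * pw Dv ψ φ dl x (chartAt (Cm n) x) y)) := by
  have hc : At (chartAt (Cm n) x) x := ⟨chart_mem_atlas _ _, mem_chart_source _ _⟩
  filter_upwards [h.dom_ev (h.self_mem_dom x), at_ev hc] with y h3 h4
  rw [nrm_eq h hprod hDv hψ hφ hk hs h3 h4]
  congr 2
  unfold wg pw
  rw [h4.left_inv, mul_add, Finset.mul_sum]
  congr 2
  refine Finset.sum_congr rfl fun i _ => ?_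
  rw [hkd]
  ring

/-- identity theorem -/
theorem nrm_freq [ConnectedSpace X] (h : IsSys n eqn T)
    (hprod : ∀ f : κ → ℂ, ∏ i, f (Dv i) = ∏ D ∈ T, f D)
    (hDv : ∀ i, Dv i ∈ T) (hψ : ∀ i, Wt (OD h (Dv i) (hDv i)) (ψ i)) (hφ : IsCanonicalMetric φ)
    (hk : ∀ D, k D ≠ 0 → D ∈ T) (hkd : ∀ i, (k (Dv i) : ℝ) = m * dl i)
    (hs : J.IsSection (Cm n) eqn m k s) (hne : ∃ x ∈ off eqn T, s x ≠ 0) (x : X) :
    ∃ᶠ y in 𝓝 x, cR eqn T (h.GG k x) m s (chartAt (Cm n) x) y ≠ 0 := by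
  have hnear := nrm_near h hprod hDv hψ hφ hk hkd hs
  have hP : ∀ x, J.HolAt (Cm n) (cR eqn T (h.GG k x) m s (chartAt (Cm n) x)) x := fun x =>
    h.cR_hol hk hs (h.self_mem_dom x) ⟨chart_mem_atlas _ _, mem_chart_source _ _⟩
  -- the set of the points near which the section does not vanish identically
  have hiff : ∀ x, ∀ᶠ y in 𝓝 x, ((∃ᶠ z in 𝓝 y, nrm h Dv ψ φ k m s z ≠ 0) ↔
      ∃ᶠ z in 𝓝 y, cR eqn T (h.GG k x) m s (chartAt (Cm n) x) z ≠ 0) := by
    intro x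
    filter_upwards [eventually_eventually_nhds.2 (hnear x)] with y hy
    refine Filter.frequently_congr ?_
    filter_upwards [hy] with z hz
    rw [hz]
    constructor
    · intro h1 h2
      apply h1
      rw [h2, norm_zero, zero_pow two_ne_zero, zero_mul]
    · intro h1
      exact mul_ne_zero (pow_ne_zero 2 (norm_ne_zero_iff.2 h1)) (Real.exp_pos _).ne'
  set U : Set X := {x | ∃ᶠ z in 𝓝 x, nrm h Dv ψ φ k m s z ≠ 0} with hU
  have hUo : IsOpen U := by
    rw [isOpen_iff_mem_nhds]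
    intro x hx
    have h1 := (hiff x).self_of_nhds.1 hx
    filter_upwards [nz_ev (hP x) h1, hiff x] with y h2 h3 using h3.2 h2
  have hUc : IsOpen Uᶜ := by
    rw [isOpen_iff_mem_nhds]
    intro x hx
    have h1 : ∀ᶠ z in 𝓝 x, nrm h Dv ψ φ k m s z = 0 := by
      have h2 : ¬ ∃ᶠ z in 𝓝 x, nrm h Dv ψ φ k m s z ≠ 0 := hx
      filter_upwards [not_frequently.1 h2] with z hz
      exact not_not.1 hz
    filter_upwards [eventually_eventually_nhds.2 h1] with y hy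
    intro h3
    exact h3 (by filter_upwards [hy] with z hz using not_not.2 hz)
  have hne' : U.Nonempty := by
    obtain ⟨x₀, hx₀, h0⟩ := hne
    refine ⟨x₀, ?_⟩
    have h1 : ∀ᶠ y in 𝓝 x₀, cR eqn T (h.GG k x₀) m s (chartAt (Cm n) x₀) y ≠ 0 := by
      refine (hP x₀).continuousAt.eventually_ne ?_
      rw [h.cR_eq hk hs (h.self_mem_dom x₀) ⟨chart_mem_atlas _ _, mem_chart_source _ _⟩ hx₀]
      exact div_ne_zero (mul_ne_zero h0 (h.GG_ne (h.self_mem_dom x₀) hx₀ k))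
        (pow_ne_zero _ (dj_ne_zero ⟨chart_mem_atlas _ _, mem_chart_source _ _⟩))
    exact (hiff x₀).self_of_nhds.2 h1.frequently
  have h1 : U = univ := IsClopen.eq_univ ⟨isOpen_compl_iff.1 hUc, hUo⟩ hne'
  have h2 : x ∈ U := by rw [h1]; trivial
  exact (hiff x).self_of_nhds.1 h2

/-- the local form -/
theorem nrm_Loc [ConnectedSpace X] (h : IsSys n eqn T)
    (hprod : ∀ f : κ → ℂ, ∏ i, f (Dv i) = ∏ D ∈ T, f D)
    (hDv : ∀ i, Dv i ∈ T) (hψ : ∀ i, Wt (OD h (Dv i) (hDv i)) (ψ i)) (hφ : IsCanonicalMetric φ)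
    (hk : ∀ D, k D ≠ 0 → D ∈ T) (hkd : ∀ i, (k (Dv i) : ℝ) = m * dl i)
    (hs : J.IsSection (Cm n) eqn m k s) (hne : ∃ x ∈ off eqn T, s x ≠ 0) (x : X) :
    Loc m (H713.KD.clsK φ dl fun i => cv (OD h (Dv i) (hDv i)) (ψ i)) (nrm h Dv ψ φ k m s) x
      (cR eqn T (h.GG k x) m s (chartAt (Cm n) x)) (fun (_ : Fin 1) _ => (1 : ℂ))
      (pw Dv ψ φ dl x (chartAt (Cm n) x)) := by
  have hc : At (chartAt (Cm n) x) x := ⟨chart_mem_atlas _ _, mem_chart_source _ _⟩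
  have hx := h.self_mem_dom x
  refine ⟨h.cR_hol hk hs hx hc, nrm_freq h hprod hDv hψ hφ hk hkd hs hne x,
    fun _ => contMDiffAt_const, fun h0 => one_ne_zero (congrFun h0 0), ?_, ?_, ?_⟩
  · filter_upwards [h.dom_ev hx, at_ev hc] with y h3 h4 e he
    exact (pw_smooth h hDv hψ hφ h3 h4 he).of_le two_le_infty
  · filter_upwards [h.dom_ev hx, at_ev hc] with y h3 h4 e he
    exact pw_hess h hDv hψ hφ h3 h4 he
  · filter_upwards [nrm_near h hprod hDv hψ hφ hk hkd hs x] with y hy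
    rw [hy]
    have : nsq (fun _ : Fin 1 => (1 : ℂ)) = 1 := by simp [nsq]
    rw [this, mul_one]

/-- **the norm of a section as a singular metric** -/
theorem nrm_curv [T2Space X] [CompactSpace X] [ConnectedSpace X] (h : IsSys n eqn T)
    (hprod : ∀ f : κ → ℂ, ∏ i, f (Dv i) = ∏ D ∈ T, f D)
    (hDv : ∀ i, Dv i ∈ T) (hψ : ∀ i, Wt (OD h (Dv i) (hDv i)) (ψ i)) (hφ : IsCanonicalMetric φ)
    (hk : ∀ D, k D ≠ 0 → D ∈ T) (hkd : ∀ i, (k (Dv i) : ℝ) = m * dl i) (hm : 0 < m)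
    (hs : J.IsSection (Cm n) eqn m k s) (hne : ∃ x ∈ off eqn T, s x ≠ 0)
    {χ : Chart n X → Cm n → Matrix (Fin n) (Fin n) ℂ} (hχ : IsKahler χ) :
    (∀ e ∈ atlas (Cm n) X, volume {z | z ∈ e.target ∧ nrm h Dv ψ φ k m s (e.symm z) = 0} = 0) ∧
    ∃ C : ℝ, 0 ≤ C ∧ ∀ δ : ℝ, 0 < δ → ∀ e x, At e x →
      ((H713.KD.clsK φ dl fun i => cv (OD h (Dv i) (hDv i)) (ψ i)) e (e x) +
        (((m : ℝ)⁻¹ : ℝ) : ℂ) • hess (fun y => Real.log (nrm h Dv ψ φ k m s y + δ)) e (e x) +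
        ((C * (δ / (nrm h Dv ψ φ k m s x + δ)) : ℝ) : ℂ) • χ e (e x)).PosSemidef := by
  have hL := nrm_Loc h hprod hDv hψ hφ hk hkd hs hne
  set Λ := H713.KD.clsK φ dl fun i => cv (OD h (Dv i) (hDv i)) (ψ i) with hΛd
  have hΛ : IsClosedForm Λ := closed_cls (fun i => isClosedForm_cv (hψ i)) hφ
  refine ⟨fun e he => ?_, ?_⟩
  · refine measure_null_of_locally_null _ fun z hz => ?_
    have hex := At.of_target he hz.1
    set x := e.symm z with hx
    have hexz : e x = z := e.right_inv hz.1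
    have h1 := holV_chart hex (h.cR_hol hk hs (h.self_mem_dom x) hex)
    rw [hexz] at h1
    have h2 := nrm_ev (k := k) (m := m) (s := s) h hprod hDv hψ hφ hk hs (h.self_mem_dom x) hex
    rw [hexz] at h2
    obtain ⟨R, hR, hball⟩ := Metric.eventually_nhds_iff_ball.1
      ((h1.analyticAt.eventually_analyticAt).and h2)
    have hne2 : ∃ y ∈ Metric.ball z R, cR eqn T (h.GG k x) m s e (e.symm y) ≠ 0 := by
      by_contra hcon
      push Not at hcon
      have h3 : ∀ᶠ y in 𝓝 x, nrm h Dv ψ φ k m s y = 0 := by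
        refine ev_of_symm hex ?_
        rw [hexz]
        filter_upwards [Metric.ball_mem_nhds z hR] with y hy
        rw [(hball y hy).2, hcon y hy, norm_zero, zero_pow two_ne_zero, zero_mul]
      have h4 := (hL x).freq
      exact h4 (by filter_upwards [h3] with y hy; rw [hy]; exact lt_irrefl _)
    have h5 := Vale.Agent.P285.H16.null_zero (f := fun y => cR eqn T (h.GG k x) m s e (e.symm y))
      Metric.isOpen_ball (convex_ball z R) (fun y hy => (hball y hy).1) hne2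
    refine ⟨Metric.ball z R ∩ {z | z ∈ e.target ∧ nrm h Dv ψ φ k m s (e.symm z) = 0}, ?_,
      measure_mono_null ?_ h5⟩
    · exact inter_mem (mem_nhdsWithin_of_mem_nhds (Metric.ball_mem_nhds z hR)) self_mem_nhdsWithin
    · rintro y ⟨hy1, hy2, hy3⟩
      refine ⟨hy1, ?_⟩
      rw [(hball y hy1).2] at hy3
      exact norm_eq_zero.1 (pow_eq_zero_iff two_ne_zero |>.1
        ((mul_eq_zero.1 hy3).resolve_right (Real.exp_pos _).ne'))
  · obtain ⟨C, hC0, hC⟩ := Vale.Agent.P272.K.AMP.Main.exists_comparison'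
      (b := fun e z => -Λ e z) hχ.toIsHermitian
      (fun e x h i j => (hΛ.smooth e x h i j).neg) (fun e e' x h h' => by
        show -Λ e (e x) = _ * -Λ e' (e' x) * _
        have h1 : Λ e (e x) = (jacM e e' x).transpose * Λ e' (e' x) *
          (jacM e e' x).map (starRingEnd ℂ) := hΛ.form e e' x h h'
        rw [h1, Matrix.mul_neg, Matrix.neg_mul]) (fun e x h => by
        have h1 := (hL x).form.self_of_nhds e h
        show (-Λ e (e x)).IsHermitian
        rw [h1]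
        exact (C2.cHess_isHermitian ((hL x).smooth.self_of_nhds e h)).neg)
    refine ⟨C, hC0.le, fun δ hδ e x he => ?_⟩
    have hc : At (chartAt (Cm n) x) x := ⟨chart_mem_atlas _ _, mem_chart_source _ _⟩
    have h1 := (hL x).curv hm he (pw_smooth h hDv hψ hφ (h.self_mem_dom x) hc he) hδ
    have hκ : 0 ≤ δ / (nrm h Dv ψ φ k m s x + δ) :=
      (div_pos hδ (add_pos_of_nonneg_of_pos (nrm_nonneg h x) hδ)).le
    have h2 := (hC e x he).smul
      (show (0 : ℂ) ≤ ((δ / (nrm h Dv ψ φ k m s x + δ) : ℝ) : ℂ) by exact_mod_cast hκ)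
    have h3 := h1.add h2
    have h4 : Λ e (e x) + (((m : ℝ)⁻¹ : ℝ) : ℂ) •
        hess (fun y => Real.log (nrm h Dv ψ φ k m s y + δ)) e (e x) +
        ((C * (δ / (nrm h Dv ψ φ k m s x + δ)) : ℝ) : ℂ) • χ e (e x) =
        Λ e (e x) + (((m : ℝ)⁻¹ : ℝ) : ℂ) •
          hess (fun y => Real.log (nrm h Dv ψ φ k m s y + δ)) e (e x) -
          ((δ / (nrm h Dv ψ φ k m s x + δ) : ℝ) : ℂ) • Λ e (e x) +
          ((δ / (nrm h Dv ψ φ k m s x + δ) : ℝ) : ℂ) • ((C : ℂ) • χ e (e x) - -Λ e (e x)) := by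
      have h5 : ((C * (δ / (nrm h Dv ψ φ k m s x + δ)) : ℝ) : ℂ) =
          ((δ / (nrm h Dv ψ φ k m s x + δ) : ℝ) : ℂ) * (C : ℂ) := by
        rw [← Complex.ofReal_mul, mul_comm]
      rw [h5, smul_sub, smul_neg, smul_smul]
      abel
    rw [h4]
    exact h3

end Vale.Agent.P281.H342.MFS
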