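import Vale.Agent.P281.H342.MFS.Dec

/-! P281, theorem MFS, block TK: differentials of the functions `Re (H ∘ f)` and kernels of the
matrices `b`. -/

open scoped Manifold ContDiff Topology ComplexOrder
open Set Filter Vale.Agent.P281.J Vale.Agent.P272.K Vale.Agent.P272.K.AMP Vale.Agent.P299
open Vale.Agent.P299.H882 (J xi qf)
open Vale.Agent.P272.K.INT (IsClosedForm)

noncomputable section

namespace Vale.Agent.P281.H342.MFS

open Vale.Agent.P281 Vale.Agent.P281.MF Vale.Agent.P281.ISO Vale.Agent.P281.H713.SA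
open Vale.Agent.P281.H716 Vale.Agent.P299.D Vale.Agent.P281.H787 Vale.Agent.P281.H713.KD
open Vale.Agent.P281.H498

set_option linter.unusedSectionVars false
set_option linter.all false

/-- a covector which vanishes on the kernel of `b` is in the span of the rows of `b` -/
theorem rows_of_ker {n p : ℕ} {b : Matrix (Fin p) (Fin n) ℂ} {ξ : Fin n → ℂ}
    (h : ∀ v : Cm n, (∀ k, ∑ l, b k l * v l = 0) → ∑ k, ξ k * v k = 0) :
    ∃ l : Fin p → ℂ, ∀ k, ξ k = ∑ a, l a * b a k := by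
  classical
  set L : Fin p → (Fin n → ℂ) →ₗ[ℂ] ℂ := fun a => ∑ k, b a k • LinearMap.proj k with hL
  set K : (Fin n → ℂ) →ₗ[ℂ] ℂ := ∑ k, ξ k • LinearMap.proj k with hK
  have hLv : ∀ a v, L a v = ∑ k, b a k * v k := by
    intro a v
    simp [hL, LinearMap.sum_apply]
  have hKv : ∀ v, K v = ∑ k, ξ k * v k := by
    intro v
    simp [hK, LinearMap.sum_apply]
  have h1 : ⨅ a, LinearMap.ker (L a) ≤ LinearMap.ker K := by
    intro v hv
    rw [LinearMap.mem_ker, hKv]
    refine h v fun a => ?_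
    have h2 := (Submodule.mem_iInf _).1 hv a
    rw [LinearMap.mem_ker, hLv] at h2
    exact h2
  obtain ⟨l, hl⟩ := (Submodule.mem_span_range_iff_exists_fun ℂ).1 (mem_span_of_iInf_ker_le_ker h1)
  refine ⟨l, fun k => ?_⟩
  have h2 := congrArg (fun T : (Fin n → ℂ) →ₗ[ℂ] ℂ => T (Pi.single k 1)) hl
  simp only [LinearMap.sum_apply, LinearMap.smul_apply, hLv, hKv, smul_eq_mul] at h2
  simp only [Pi.single_apply, mul_ite, mul_one, mul_zero, Finset.sum_ite_eq',
    Finset.mem_univ, if_true] at h2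
  exact h2.symm

section re

variable {n : ℕ} {z : Cm n}

theorem xi_re {X : Type} [TopologicalSpace X] {u : X → ℝ} {e : Chart n X} {H : Cm n → ℂ}
    (hH : AnalyticAt ℂ H z) (hu : ∀ᶠ y in 𝓝 z, u (e.symm y) = (H y).re) (k : Fin n) :
    xi u e z k = 2⁻¹ * fderiv ℂ H z (Pi.single k 1) := by
  have hd : DifferentiableAt ℂ H z := hH.differentiableAt
  have hdr : DifferentiableAt ℝ H z := hd.restrictScalars ℝ
  have h1 : (fun y => ((u (e.symm y) : ℝ) : ℂ)) =ᶠ[𝓝 z] fun y => (((H y).re : ℝ) : ℂ) := by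
    filter_upwards [hu] with y h2
    rw [h2]
  have h2 : fderiv ℝ H z = (fderiv ℂ H z).restrictScalars ℝ :=
    (hd.hasFDerivAt.restrictScalars ℝ).fderiv
  have h3 : ∀ v : Cm n, fderiv ℝ (fun y => (((H y).re : ℝ) : ℂ)) z v =
      (((fderiv ℂ H z v).re : ℝ) : ℂ) := by
    intro v
    have h4 : HasFDerivAt (fun y => (((H y).re : ℝ) : ℂ))
        ((Complex.ofRealCLM.comp Complex.reCLM).comp (fderiv ℝ H z)) z := by
      have := (Complex.ofRealCLM.comp Complex.reCLM).hasFDerivAt.comp z hdr.hasFDerivAt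
      exact this
    rw [h4.fderiv, h2]
    rfl
  show dz k (fun y => ((u (e.symm y) : ℝ) : ℂ)) z = _
  rw [C2.dz_congr k h1]
  unfold dz
  have h5 : (Pi.single k Complex.I : Cm n) = Complex.I • (Pi.single k 1 : Cm n) := by
    rw [← Pi.single_smul]; simp
  rw [h3, h3, h5, map_smul, smul_eq_mul]
  have h6 : (Complex.I * fderiv ℂ H z (Pi.single k 1)).re =
      -(fderiv ℂ H z (Pi.single k 1)).im := by simp
  rw [h6]
  set t := fderiv ℂ H z (Pi.single k 1) with ht
  apply Complex.ext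
  · simp
    ring
  · simp
    ring

theorem xi_re_sum {X : Type} [TopologicalSpace X] {u : X → ℝ} {e : Chart n X} {H : Cm n → ℂ}
    (hH : AnalyticAt ℂ H z) (hu : ∀ᶠ y in 𝓝 z, u (e.symm y) = (H y).re) (v : Cm n) :
    ∑ k, xi u e z k * v k = 2⁻¹ * fderiv ℂ H z v := by
  rw [clm_sum (fderiv ℂ H z) v, Finset.mul_sum]
  refine Finset.sum_congr rfl fun k _ => ?_
  rw [xi_re hH hu k]
  ring

end re

section

variable {n p M μ : ℕ} {X Z Y : Type} [TopologicalSpace X]
  [ChartedSpace (Cm n) X] [IsManifold 𝓘(ℂ, Cm n) ω X]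
  [TopologicalSpace Z] [ChartedSpace (Cm n) Z] [IsManifold 𝓘(ℂ, Cm n) ω Z]
  [TopologicalSpace Y] [ChartedSpace (Cm p) Y] [IsManifold 𝓘(ℂ, Cm p) ω Y]
  {j : Z → X} {f : Z → Y} {S : Set Y} {Dv : Fin M → Set X}
  {r : Fin M → X → ℝ} {R : Fin M → FormM n X} {e : Chart n X} {x : X}

/-- the differentials of the functions `Re (H ∘ f)` vanish on the kernel of `df` -/
theorem xi_kerD (hs : Setup n p j f S Dv) (he : At e x) {z : Z} (hzx : j z = x)
    {H : Y → ℂ} (hH : J.HolAt (Cm p) H (f z)) {u : X → ℝ}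
    (hu : ∀ᶠ w in 𝓝 z, u (j w) = (H (f w)).re) {v : Cm n} (hv : KerD n p j f S e x v) :
    ∑ k, xi u e (e x) k * v k = 0 := by
  obtain ⟨z', w, h1, h2, h3, h4⟩ := hv
  have h5 : z' = z := hs.emb.injective (h1.trans hzx.symm)
  subst h5
  subst h1
  have hQ : HolV (Cm n) (fun w => H (f w)) z' := HolV.comp (f := f) hH (hs.hf z')
  have hGa := analytic_jinv hs he hQ
  have hue : ∀ᶠ y in 𝓝 (e (j z')), u (e.symm y) = (H (f (jinv j z' (e.symm y)))).re := by
    filter_upwards [ev_jinv hs he hu] with y hy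
    obtain ⟨w, k1, k2, k3, k4, k5⟩ := hy
    rw [k4, k2]
    exact k1
  rw [xi_re_sum hGa hue]
  have hjc : ContinuousAt j z' := (hs.hj z').continuousAt
  have h6 : dV (Cm n) (fun w => H (f w)) z' =
      (fderiv ℂ (fun y => H (f (jinv j z' (e.symm y)))) (e (j z'))).comp
        (dV (Cm n) (fun w => e (j w)) z') := by
    rw [← dV_comp_contDiff (G := fun y => H (f (jinv j z' (e.symm y))))
      (v := fun w => e (j w)) hGa.contDiffAt (holV_ej hs.hj he)]
    refine dV_congr ?_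
    filter_upwards [hjc.eventually (e.open_source.mem_nhds he.2)] with w hw
    rw [e.left_inv hw, jinv_j hs.emb.injective]
  have h7 : dV (Cm n) (fun w => H (f w)) z' w = 0 := by
    rw [dV_comp (h := H) hH (hs.hf z')]
    show dV (Cm p) H (f z') (dM (Cm n) (Cm p) f z' w) = 0
    rw [h4, map_zero]
  rw [h6] at h7
  have h8 : fderiv ℂ (fun y => H (f (jinv j z' (e.symm y)))) (e (j z')) v = 0 := by
    rw [← h3]
    exact h7
  rw [h8, mul_zero]

end

end Vale.Agent.P281.H342.MFS
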